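import Vale.Agent.P358.Trace

namespace Vale.Agent.P358

open Matrix Finset MeasureTheory Filter Topology
open scoped ComplexOrder ENNReal

lemma log_comb_integral {ι : Type} [Fintype ι] (c l : ι → ℝ) (hl : ∀ i, 0 ≤ l i)
    (hc : ∑ i, c i = 0) (hcl : ∑ i, c i * l i = 0)
    (hf : ∀ t, 0 < t → 0 ≤ ∑ i, c i * Real.log (t + l i)) :
    (∫⁻ t in Set.Ioi (0 : ℝ), ENNReal.ofReal (∑ i, c i * Real.log (t + l i)))
        = ENNReal.ofReal (∑ i, c i * Real.negMulLog (l i))
      ∧ 0 ≤ ∑ i, c i * Real.negMulLog (l i) := by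
  set f : ℝ → ℝ := fun t => ∑ i, c i * Real.log (t + l i) with hfd
  set g : ℝ → ℝ := fun t => ∑ i, c i * ((t + l i) * Real.log (t + l i)) with hgd
  have hderiv : ∀ t ∈ Set.Ioi (0 : ℝ), HasDerivAt g (f t) t := by
    intro t ht
    have ht0 : 0 < t := ht
    have h := HasDerivAt.fun_sum (u := univ) fun i (_ : i ∈ (univ : Finset ι)) =>
      ((Real.hasDerivAt_mul_log (x := t + l i)
        (by linarith [hl i] : t + l i ≠ 0)).comp t
        ((hasDerivAt_id t).add_const (l i))).const_mul (c i)
    refine h.congr_deriv ?_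
    simp only [mul_one, mul_add, sum_add_distrib, hc, add_zero, hfd]
  have hcont : Continuous g :=
    continuous_finsetSum _ fun i _ => continuous_const.mul
      (Real.continuous_mul_log.comp (continuous_id.add continuous_const))
  have hlim : Tendsto g atTop (𝓝 0) := by
    have h : ∀ i, Tendsto (fun t : ℝ => (t + l i) * Real.log (1 + l i / t)) atTop (𝓝 (l i)) := by
      intro i
      have h1 := Real.tendsto_mul_log_one_add_div_atTop (l i)
      have h2 : Tendsto (fun t : ℝ => l i * Real.log (1 + l i / t)) atTop (𝓝 0) := by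
        have h4 : Tendsto (fun t : ℝ => 1 + l i / t) atTop (𝓝 1) := by
          simpa using (Tendsto.div_atTop tendsto_const_nhds tendsto_id).const_add (1 : ℝ)
        have h3 := ((Real.continuousAt_log one_ne_zero).tendsto.comp h4).const_mul (l i)
        simpa using h3
      have := h1.add h2
      simpa [add_mul] using this
    have hsum : Tendsto (fun t => ∑ i, c i * ((t + l i) * Real.log (1 + l i / t))) atTop
        (𝓝 (∑ i, c i * l i)) := tendsto_finsetSum _ fun i _ => (h i).const_mul (c i)
    rw [hcl] at hsum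
    refine hsum.congr' ?_
    filter_upwards [eventually_gt_atTop (0 : ℝ)] with t ht
    have e : ∀ i, c i * ((t + l i) * Real.log (1 + l i / t))
        = c i * ((t + l i) * Real.log (t + l i)) - (c i * t + c i * l i) * Real.log t := by
      intro i
      have hne : t + l i ≠ 0 := by linarith [hl i]
      rw [one_add_div ht.ne', Real.log_div hne ht.ne']
      ring
    simp only [e, sum_sub_distrib, ← sum_mul, sum_add_distrib, hc, hcl, hgd]
    simp
  have hval : 0 - g 0 = ∑ i, c i * Real.negMulLog (l i) := by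
    simp [hgd, Real.negMulLog, zero_add]
  have hint : IntegrableOn f (Set.Ioi 0) :=
    integrableOn_Ioi_deriv_of_nonneg hcont.continuousWithinAt hderiv (fun t ht => hf t ht) hlim
  have heq := integral_Ioi_of_hasDerivAt_of_nonneg hcont.continuousWithinAt hderiv
    (fun t ht => hf t ht) hlim
  have hae : 0 ≤ᵐ[volume.restrict (Set.Ioi (0 : ℝ))] f :=
    (ae_restrict_iff' measurableSet_Ioi).mpr (Eventually.of_forall fun t ht => hf t ht)
  refine ⟨?_, ?_⟩
  · rw [← hval, ← heq, ofReal_integral_eq_lintegral_ofReal hint hae]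
  · rw [← hval, ← heq]
    exact integral_nonneg_of_ae hae

/-- The weight `1/(1+s)`. -/
noncomputable def wt (s : ℝ) : ℝ≥0∞ := ENNReal.ofReal (1 / (1 + s))

/-- The kernel `1/(1+f+g)^2`. -/
noncomputable def ker (f g : ℝ) : ℝ≥0∞ := ENNReal.ofReal (1 / (1 + f + g) ^ 2)

lemma measurable_wt : Measurable wt :=
  ENNReal.measurable_ofReal.comp (measurable_const.div (measurable_const.add measurable_id))

lemma measurable_ker : Measurable (Function.uncurry ker) :=
  ENNReal.measurable_ofReal.comp (measurable_const.div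
    (((measurable_const.add measurable_fst).add measurable_snd).pow_const 2))

lemma lintegral_Ioi_lt (x : ℝ) :
    ∫⁻ t in Set.Ioi (0 : ℝ), (if t < x then (1 : ℝ≥0∞) else 0) = ENNReal.ofReal x := by
  have h : (fun t => if t < x then (1 : ℝ≥0∞) else 0) = (Set.Iio x).indicator 1 := by
    funext t; simp [Set.indicator_apply]
  rw [h, lintegral_indicator_one measurableSet_Iio, Measure.restrict_apply measurableSet_Iio,
    Set.inter_comm, Set.Ioi_inter_Iio, Real.volume_Ioo, sub_zero]

lemma lintegral_Ioi_mul_lt {F F' : ℝ → ℝ} (x : ℝ) (hx : 0 ≤ x)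
    (hderiv : ∀ s ∈ Set.Icc 0 x, HasDerivAt F (F' s) s) (hcont : ContinuousOn F' (Set.Icc 0 x))
    (hpos : ∀ s ∈ Set.Icc 0 x, 0 ≤ F' s) :
    ∫⁻ s in Set.Ioi (0 : ℝ), ENNReal.ofReal (F' s) * (if s < x then 1 else 0)
      = ENNReal.ofReal (F x - F 0) := by
  have h : (fun s => ENNReal.ofReal (F' s) * (if s < x then (1 : ℝ≥0∞) else 0))
      = (Set.Iio x).indicator fun s => ENNReal.ofReal (F' s) := by
    funext s; by_cases hs : s < x <;> simp [hs]
  rw [h, lintegral_indicator measurableSet_Iio, Measure.restrict_restrict measurableSet_Iio,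
    Set.inter_comm, Set.Ioi_inter_Iio]
  have hint : IntervalIntegrable F' volume 0 x := hcont.intervalIntegrable_of_Icc hx
  have he := intervalIntegral.integral_eq_sub_of_hasDerivAt
    (by rwa [Set.uIcc_of_le hx]) hint
  rw [intervalIntegral.integral_of_le hx, integral_Ioc_eq_integral_Ioo] at he
  rw [← he, ofReal_integral_eq_lintegral_ofReal]
  · exact (hcont.integrableOn_Icc).mono_set Set.Ioo_subset_Icc_self
  · exact (ae_restrict_iff' measurableSet_Ioo).mpr
      (Eventually.of_forall fun s hs => hpos s (Set.Ioo_subset_Icc_self hs))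

lemma wt_integral (x : ℝ) (hx : 0 ≤ x) :
    ∫⁻ s in Set.Ioi (0 : ℝ), wt s * (if s < x then 1 else 0)
      = ENNReal.ofReal (Real.log (1 + x)) := by
  have := lintegral_Ioi_mul_lt (F := fun s => Real.log (1 + s)) (F' := fun s => 1 / (1 + s)) x hx
    (fun s hs => by
      simpa using ((hasDerivAt_id s).const_add 1).log (by simp; linarith [hs.1]))
    (ContinuousOn.div continuousOn_const (continuousOn_const.add continuousOn_id)
      (fun s hs => by simp at hs ⊢; linarith [hs.1]))
    (fun s hs => by have := hs.1; positivity)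
  simpa [wt] using this

lemma ker_integral_lt (f : ℝ) (hf : 0 ≤ f) (y : ℝ) (hy : 0 ≤ y) :
    ∫⁻ g in Set.Ioi (0 : ℝ), ker f g * (if g < y then 1 else 0)
      = ENNReal.ofReal (1 / (1 + f) - 1 / (1 + f + y)) := by
  have := lintegral_Ioi_mul_lt (F := fun g => -(1 + f + g)⁻¹)
    (F' := fun g => 1 / (1 + f + g) ^ 2) y hy
    (fun s hs => by
      have h1 : 1 + f + s ≠ 0 := by linarith [hs.1]
      have := (((hasDerivAt_id s).const_add (1 + f)).inv (by simpa using h1)).neg
      exact this.congr_deriv (by simp [neg_div]))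
    (ContinuousOn.div continuousOn_const
      (((continuousOn_const.add continuousOn_id)).pow 2)
      (fun s hs => by
        simp at hs ⊢
        linarith [hs.1]))
    (fun s hs => by positivity)
  rw [show 1 / (1 + f) - 1 / (1 + f + y) = -(1 + f + y)⁻¹ - -(1 + f + 0)⁻¹ by ring]
  simpa only [ker] using this

lemma ker_integral (f : ℝ) (hf : 0 ≤ f) :
    ∫⁻ g in Set.Ioi (0 : ℝ), ker f g = wt f := by
  have hderiv : ∀ s ∈ Set.Ici (0 : ℝ),
      HasDerivAt (fun g => -(1 + f + g)⁻¹) (1 / (1 + f + s) ^ 2) s := fun s hs => by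
    have h1 : 1 + f + s ≠ 0 := by linarith [Set.mem_Ici.mp hs]
    have := (((hasDerivAt_id s).const_add (1 + f)).inv (by simpa using h1)).neg
    exact this.congr_deriv (by simp [neg_div])
  have hlim : Tendsto (fun g => -(1 + f + g)⁻¹) atTop (𝓝 (0 : ℝ)) := by
    simpa using (tendsto_inv_atTop_zero.comp (tendsto_atTop_add_const_left atTop (1 + f)
      tendsto_id)).neg
  have hp : ∀ s ∈ Set.Ioi (0 : ℝ), 0 ≤ 1 / (1 + f + s) ^ 2 := fun s _ => by positivity
  have hint := integrableOn_Ioi_deriv_of_nonneg' hderiv hp hlim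
  have he := integral_Ioi_of_hasDerivAt_of_nonneg' hderiv hp hlim
  simp only [ker, wt]
  rw [← ofReal_integral_eq_lintegral_ofReal hint
    ((ae_restrict_iff' measurableSet_Ioi).mpr (Eventually.of_forall hp)), he]
  congr 1
  ring

lemma ker_double_integral (x y : ℝ) (hx : 0 ≤ x) (hy : 0 ≤ y) :
    ∫⁻ f in Set.Ioi (0 : ℝ), ∫⁻ g in Set.Ioi (0 : ℝ),
        ker f g * ((if f < x then 1 else 0) * (if g < y then 1 else 0))
      = ENNReal.ofReal (Real.log (1 + x) + Real.log (1 + y) - Real.log (1 + x + y)) := by
  have h1 : ∀ f ∈ Set.Ioi (0 : ℝ), (∫⁻ g in Set.Ioi (0 : ℝ),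
      ker f g * ((if f < x then 1 else 0) * (if g < y then 1 else 0)))
      = ENNReal.ofReal (1 / (1 + f) - 1 / (1 + f + y)) * (if f < x then 1 else 0) := by
    intro f hf
    by_cases hfx : f < x
    · simp only [hfx, if_true, one_mul, mul_one, ker_integral_lt f (le_of_lt hf) y hy]
    · simp [hfx]
  rw [setLIntegral_congr_fun measurableSet_Ioi h1]
  have := lintegral_Ioi_mul_lt (F := fun f => Real.log (1 + f) - Real.log (1 + f + y))
    (F' := fun f => 1 / (1 + f) - 1 / (1 + f + y)) x hx
    (fun s hs => by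
      have a1 := ((hasDerivAt_id s).const_add 1).log (by simp; linarith [hs.1])
      have a2 := (((hasDerivAt_id s).const_add 1).add_const y).log (by simp; linarith [hs.1])
      simpa using a1.fun_sub a2)
    ((ContinuousOn.div continuousOn_const (continuousOn_const.add continuousOn_id)
        (fun s hs => by simp at hs ⊢; linarith [hs.1])).sub
      (ContinuousOn.div continuousOn_const
        ((continuousOn_const.add continuousOn_id).add continuousOn_const)
        (fun s hs => by simp at hs ⊢; linarith [hs.1])))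
    (fun s hs => by
      have := hs.1
      rw [sub_nonneg]
      exact one_div_le_one_div_of_le (by linarith) (by linarith))
  rw [this]
  congr 1
  simp
  ring

/-- A decreasing family: initial segments are nested. -/
lemma card_filter_and {M : ℕ} {p q : Fin M → Prop} [DecidablePred p] [DecidablePred q]
    (hp : ∀ i j, i ≤ j → p j → p i) (hq : ∀ i j, i ≤ j → q j → q i) :
    (univ.filter fun k => p k ∧ q k).card
      = min (univ.filter p).card (univ.filter q).card := by
  by_cases h : ∀ k, p k → q k
  · have h1 : (univ.filter fun k => p k ∧ q k) = univ.filter p :=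
      filter_congr fun k _ => ⟨fun hk => hk.1, fun hk => ⟨hk, h k hk⟩⟩
    rw [h1, min_eq_left]
    exact card_le_card fun k hk => by simpa using h k (by simpa using hk)
  · push Not at h
    obtain ⟨k₀, hp₀, hq₀⟩ := h
    have h' : ∀ k, q k → p k := fun k hk => hp k k₀ (le_of_not_ge fun hle => hq₀ (hq _ _ hle hk)) hp₀
    have h1 : (univ.filter fun k => p k ∧ q k) = univ.filter q :=
      filter_congr fun k _ => ⟨fun hk => hk.2, fun hk => ⟨h' k hk, hk⟩⟩
    rw [h1, min_eq_right]
    exact card_le_card fun k hk => by simpa using h' k (by simpa using hk)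

end Vale.Agent.P358
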