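import Mathlib

namespace Vale.Agent.P358

open Matrix Finset
open scoped ComplexOrder

variable {ι κ : Type} [Fintype ι] [Fintype κ] [DecidableEq ι] [DecidableEq κ]

/-- Squared Euclidean norm of a vector. -/
def nsq (v : ι → ℂ) : ℝ := ∑ i, Complex.normSq (v i)

/-- The quadratic form of a matrix. -/
def qf (X : Matrix ι ι ℂ) (v : ι → ℂ) : ℝ := (star v ⬝ᵥ (X *ᵥ v)).re

/-- Von Neumann entropy in nats, not normalised. -/
noncomputable def ent (X : Matrix ι ι ℂ) : ℝ :=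
  if h : X.IsHermitian then ∑ i, Real.negMulLog (h.eigenvalues i) else 0

/-- The number of eigenvalues above `t`. -/
noncomputable def cnt {X : Matrix ι ι ℂ} (hX : X.IsHermitian) (t : ℝ) : ℕ :=
  (univ.filter fun i => t < hX.eigenvalues i).card

omit [DecidableEq ι] in
lemma star_dot_self (v : ι → ℂ) : star v ⬝ᵥ v = (nsq v : ℂ) := by
  simp [dotProduct, nsq, Complex.normSq_eq_conj_mul_self]

omit [DecidableEq ι] in
lemma nsq_eq (v : ι → ℂ) : nsq v = (star v ⬝ᵥ v).re := by simp [star_dot_self]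

omit [DecidableEq ι] in
lemma nsq_nonneg (v : ι → ℂ) : 0 ≤ nsq v := sum_nonneg fun _ _ => Complex.normSq_nonneg _

omit [DecidableEq ι] in
lemma nsq_pos {v : ι → ℂ} (h : v ≠ 0) : 0 < nsq v := by
  obtain ⟨i, hi⟩ := Function.ne_iff.mp h
  exact sum_pos' (fun _ _ => Complex.normSq_nonneg _) ⟨i, mem_univ _, Complex.normSq_pos.mpr hi⟩

lemma unitary_mulVec_mulVec {U : Matrix ι ι ℂ} (hU : Uᴴ * U = 1) (v : ι → ℂ) :
    Uᴴ *ᵥ (U *ᵥ v) = v := by rw [mulVec_mulVec, hU, one_mulVec]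

omit [DecidableEq ι] [DecidableEq κ] in
lemma star_dot_mulVec (U : Matrix ι κ ℂ) (v : κ → ℂ) (w : ι → ℂ) :
    star (U *ᵥ v) ⬝ᵥ w = star v ⬝ᵥ (Uᴴ *ᵥ w) := by
  rw [star_mulVec, dotProduct_mulVec]

lemma nsq_unitary {U : Matrix ι ι ℂ} (hU : Uᴴ * U = 1) (v : ι → ℂ) :
    nsq (U *ᵥ v) = nsq v := by
  rw [nsq_eq, nsq_eq, star_dot_mulVec, unitary_mulVec_mulVec hU]

lemma qf_diag (U : Matrix ι ι ℂ) (d : ι → ℝ) (v : ι → ℂ) :
    qf (U * diagonal (fun i => (d i : ℂ)) * Uᴴ) v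
      = ∑ i, d i * Complex.normSq ((Uᴴ *ᵥ v) i) := by
  have h : star v ⬝ᵥ ((U * diagonal (fun i => (d i : ℂ)) * Uᴴ) *ᵥ v)
      = star (Uᴴ *ᵥ v) ⬝ᵥ (diagonal (fun i => (d i : ℂ)) *ᵥ (Uᴴ *ᵥ v)) := by
    rw [star_dot_mulVec, conjTranspose_conjTranspose, mulVec_mulVec, mulVec_mulVec]
  rw [qf, h, dotProduct, Complex.re_sum]
  refine sum_congr rfl fun i _ => ?_
  rw [mulVec_diagonal, Pi.star_apply]
  simp [Complex.normSq, Complex.mul_re, Complex.mul_im]
  ring

lemma eig_decomp {X : Matrix ι ι ℂ} (hX : X.IsHermitian) :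
    ∃ U : Matrix ι ι ℂ, Uᴴ * U = 1 ∧ U * Uᴴ = 1 ∧
      X = U * diagonal (fun i => (hX.eigenvalues i : ℂ)) * Uᴴ := by
  refine ⟨(hX.eigenvectorUnitary : Matrix ι ι ℂ), ?_, ?_, ?_⟩
  · exact Unitary.coe_star_mul_self hX.eigenvectorUnitary
  · exact Unitary.coe_mul_star_self hX.eigenvectorUnitary
  · conv_lhs => rw [hX.spectral_theorem]
    rw [Unitary.conjStarAlgAut_apply]
    rfl

/-- The comparison principle for counts of eigenvalues above a level. -/
lemma cnt_le_of_form {X : Matrix ι ι ℂ} {Y : Matrix κ κ ℂ} (hX : X.IsHermitian)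
    (hY : Y.IsHermitian) (t t' : ℝ) (T : (ι → ℂ) →ₗ[ℂ] (κ → ℂ))
    (h : ∀ v, t * nsq v < qf X v → t' * nsq (T v) < qf Y (T v)) :
    cnt hX t ≤ cnt hY t' := by
  obtain ⟨U, hU, -, hXd⟩ := eig_decomp hX
  obtain ⟨V, -, hV', hYd⟩ := eig_decomp hY
  set S := univ.filter fun i => t < hX.eigenvalues i with hS
  set S' := univ.filter fun i => t' < hY.eigenvalues i with hS'
  let ext : (S → ℂ) →ₗ[ℂ] (ι → ℂ) :=
    { toFun := fun c i => if hi : i ∈ S then c ⟨i, hi⟩ else 0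
      map_add' := fun a b => by funext i; by_cases hi : i ∈ S <;> simp [hi]
      map_smul' := fun a b => by funext i; by_cases hi : i ∈ S <;> simp [hi] }
  let Φ : (S → ℂ) →ₗ[ℂ] (S' → ℂ) :=
    { toFun := fun c j => (Vᴴ *ᵥ T (U *ᵥ ext c)) j.1
      map_add' := fun a b => by funext j; simp [mulVec_add]
      map_smul' := fun a b => by funext j; simp [mulVec_smul] }
  have hinj : Function.Injective Φ := by
    refine (injective_iff_map_eq_zero Φ).mpr fun c hc => ?_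
    by_contra hne
    obtain ⟨⟨i₀, hi₀⟩, hc0⟩ := Function.ne_iff.mp hne
    set z := ext c with hz
    have hzS : ∀ i, i ∉ S → z i = 0 := fun i hi => by simp [hz, ext, hi]
    have hz0 : z i₀ = c ⟨i₀, hi₀⟩ := by simp [hz, ext, hi₀]
    have h1 : t * nsq (U *ᵥ z) < qf X (U *ᵥ z) := by
      rw [hXd, qf_diag, nsq_unitary hU, unitary_mulVec_mulVec hU, nsq, mul_sum]
      refine sum_lt_sum (fun i _ => ?_) ⟨i₀, mem_univ _, ?_⟩
      · by_cases hi : i ∈ S
        · exact mul_le_mul_of_nonneg_right (le_of_lt (by simpa [hS] using hi))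
            (Complex.normSq_nonneg _)
        · simp [hzS i hi]
      · exact mul_lt_mul_of_pos_right (by simpa [hS] using hi₀)
          (Complex.normSq_pos.mpr (by rw [hz0]; exact hc0))
    have h2 := h _ h1
    have h3 : qf Y (T (U *ᵥ z)) ≤ t' * nsq (T (U *ᵥ z)) := by
      have hn : nsq (T (U *ᵥ z)) = nsq (Vᴴ *ᵥ T (U *ᵥ z)) :=
        (nsq_unitary (U := Vᴴ) (by rw [conjTranspose_conjTranspose]; exact hV') _).symm
      rw [hYd, qf_diag, hn, nsq, mul_sum]
      refine sum_le_sum fun j _ => ?_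
      by_cases hj : j ∈ S'
      · have : (Vᴴ *ᵥ T (U *ᵥ z)) j = 0 := congr_fun hc ⟨j, hj⟩
        simp [this]
      · exact mul_le_mul_of_nonneg_right (le_of_not_gt (by simpa [hS'] using hj))
          (Complex.normSq_nonneg _)
    linarith
  have := LinearMap.finrank_le_finrank_of_injective hinj
  simpa [cnt, hS, hS', Fintype.card_subtype] using this

omit [DecidableEq ι] [DecidableEq κ] in
lemma qf_add (X Y : Matrix ι ι ℂ) (v : ι → ℂ) : qf (X + Y) v = qf X v + qf Y v := by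
  simp [qf, add_mulVec, dotProduct_add]

omit [DecidableEq ι] [DecidableEq κ] in
lemma qf_sub (X Y : Matrix ι ι ℂ) (v : ι → ℂ) : qf (X - Y) v = qf X v - qf Y v := by
  simp [qf, sub_mulVec, dotProduct_sub]

omit [DecidableEq ι] [DecidableEq κ] in
lemma qf_smul (r : ℝ) (X : Matrix ι ι ℂ) (v : ι → ℂ) :
    qf ((r : ℂ) • X) v = r * qf X v := by
  simp [qf, smul_mulVec, dotProduct_smul]

omit [DecidableEq ι] [DecidableEq κ] in
lemma qf_gram (G : Matrix ι κ ℂ) (v : ι → ℂ) : qf (G * Gᴴ) v = nsq (Gᴴ *ᵥ v) := by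
  rw [qf, nsq_eq, star_dot_mulVec, conjTranspose_conjTranspose, mulVec_mulVec]

omit [DecidableEq ι] in
lemma qf_nonneg {X : Matrix ι ι ℂ} (hX : X.PosSemidef) (v : ι → ℂ) : 0 ≤ qf X v :=
  (Complex.nonneg_iff.mp (hX.dotProduct_mulVec_nonneg v)).1

lemma qf_one (v : ι → ℂ) : qf (1 : Matrix ι ι ℂ) v = nsq v := by
  simp [qf, nsq_eq]

lemma roots_conj {U : Matrix ι ι ℂ} (hU : Uᴴ * U = 1) (d : ι → ℂ) :
    (U * diagonal d * Uᴴ).charpoly.roots = univ.val.map d := by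
  rw [charpoly_mul_comm, ← mul_assoc, hU, one_mul, charpoly_diagonal,
    Finset.prod_eq_multiset_prod]
  have := Polynomial.roots_multiset_prod_X_sub_C (univ.val.map d)
  rwa [Multiset.map_map] at this

lemma eig_multiset {U : Matrix ι ι ℂ} (hU : Uᴴ * U = 1) (d : ι → ℝ)
    (h : (U * diagonal (fun i => (d i : ℂ)) * Uᴴ).IsHermitian) :
    univ.val.map h.eigenvalues = univ.val.map d := by
  have h1 := roots_conj hU (fun i => (d i : ℂ))
  rw [h.roots_charpoly_eq_eigenvalues] at h1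
  have := congrArg (Multiset.map Complex.re) h1
  simpa [Multiset.map_map, Function.comp_def] using this

lemma sum_eig_conj {U : Matrix ι ι ℂ} (hU : Uᴴ * U = 1) (d : ι → ℝ)
    (h : (U * diagonal (fun i => (d i : ℂ)) * Uᴴ).IsHermitian) (f : ℝ → ℝ) :
    ∑ i, f (h.eigenvalues i) = ∑ i, f (d i) := by
  have := congrArg (fun s => (Multiset.map f s).sum) (eig_multiset hU d h)
  simpa [Multiset.map_map] using this

lemma ent_conj {U : Matrix ι ι ℂ} (hU : Uᴴ * U = 1) (d : ι → ℝ) :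
    ent (U * diagonal (fun i => (d i : ℂ)) * Uᴴ) = ∑ i, Real.negMulLog (d i) := by
  have h : (U * diagonal (fun i => (d i : ℂ)) * Uᴴ).IsHermitian :=
    isHermitian_mul_mul_conjTranspose U
      (isHermitian_diagonal_of_self_adjoint _ (by
        funext i
        simp))
  rw [ent, dif_pos h]
  exact sum_eig_conj hU d h _

end Vale.Agent.P358
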