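import Mathlib

namespace Vale.Agent.P358

open Matrix
open scoped ComplexOrder

/-- The generalized amplitude-damping map with damping `γ` and stationary excitation `ν`,
extended linearly to all complex two-by-two matrices. -/
noncomputable def gadc (γ ν : ℝ) (ρ : Matrix (Fin 2) (Fin 2) ℂ) : Matrix (Fin 2) (Fin 2) ℂ :=
  !![(1 - γ * ν : ℂ) * ρ 0 0 + (γ * (1 - ν) : ℂ) * ρ 1 1, (Real.sqrt (1 - γ) : ℂ) * ρ 0 1;
     (Real.sqrt (1 - γ) : ℂ) * ρ 1 0, (γ * ν : ℂ) * ρ 0 0 + (1 - γ + γ * ν : ℂ) * ρ 1 1]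

/-- The `n`-th tensor power of a linear map on qubit matrices, given on matrix units. -/
noncomputable def tensorPow (Φ : Matrix (Fin 2) (Fin 2) ℂ → Matrix (Fin 2) (Fin 2) ℂ) (n : ℕ)
    (ρ : Matrix (Fin n → Fin 2) (Fin n → Fin 2) ℂ) :
    Matrix (Fin n → Fin 2) (Fin n → Fin 2) ℂ :=
  Matrix.of fun x x' => ∑ y, ∑ y', (∏ i, Φ (Matrix.single (y i) (y' i) 1) (x i) (x' i)) * ρ y y'

/-- Von Neumann entropy in bits. -/
noncomputable def entropyBits {ι : Type} [Fintype ι] [DecidableEq ι] (ρ : Matrix ι ι ℂ) : ℝ :=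
  (if h : ρ.IsHermitian then ∑ i, Real.negMulLog (h.eigenvalues i) else 0) / Real.log 2

/-- Holevo quantities of all finite ensembles of states on `n` qubits sent through the
`n`-th tensor power of a map. -/
def holevoValues (Φ : Matrix (Fin 2) (Fin 2) ℂ → Matrix (Fin 2) (Fin 2) ℂ) (n : ℕ) : Set ℝ :=
  { r | ∃ (k : ℕ) (q : Fin k → ℝ) (ρ : Fin k → Matrix (Fin n → Fin 2) (Fin n → Fin 2) ℂ),
      (∀ a, 0 ≤ q a) ∧ ∑ a, q a = 1 ∧ (∀ a, (ρ a).PosSemidef ∧ (ρ a).trace = 1) ∧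
      r = entropyBits (∑ a, (q a : ℂ) • tensorPow Φ n (ρ a))
        - ∑ a, q a * entropyBits (tensorPow Φ n (ρ a)) }

/-- The scalar expression: output entropy of a diagonal input of excited population `∑ q p`,
minus the average output entropy of pure inputs of excited populations `p`. -/
def scalarValues (γ ν : ℝ) : Set ℝ :=
  { r | ∃ (k : ℕ) (q p : Fin k → ℝ),
      (∀ a, 0 ≤ q a) ∧ ∑ a, q a = 1 ∧ (∀ a, 0 ≤ p a ∧ p a ≤ 1) ∧
      r = (Real.binEntropy ((1 - γ) * (∑ a, q a * p a) + γ * ν)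
        - ∑ a, q a * Real.binEntropy ((1 + Real.sqrt ((1 - 2 * ((1 - γ) * p a + γ * ν)) ^ 2
            + 4 * (1 - γ) * p a * (1 - p a))) / 2)) / Real.log 2 }

end Vale.Agent.P358
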