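import Vale.Agent.P358.Entropy
import Vale.Agent.P358.Defs

namespace Vale.Agent.P358

open Matrix Finset
open scoped ComplexOrder

/-- Parameters of a phase-covariant qubit channel. -/
structure Par where
  /-- survival probability of the ground state -/
  u : ℝ
  /-- survival probability of the excited state -/
  w : ℝ
  /-- coherence factor -/
  l : ℝ
  hu : 0 ≤ u
  hu' : u ≤ 1
  hw : 0 ≤ w
  hw' : w ≤ 1
  hl : 0 ≤ l
  hluw : l ^ 2 ≤ u * w

namespace Par

variable (c : Par)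

/-- The channel. -/
noncomputable def chan (ρ : Matrix (Fin 2) (Fin 2) ℂ) : Matrix (Fin 2) (Fin 2) ℂ :=
  !![(c.u : ℂ) * ρ 0 0 + (1 - c.w : ℂ) * ρ 1 1, (c.l : ℂ) * ρ 0 1;
     (c.l : ℂ) * ρ 1 0, (1 - c.u : ℂ) * ρ 0 0 + (c.w : ℂ) * ρ 1 1]

/-- Transition probabilities. -/
noncomputable def P : Fin 2 → Fin 2 → ℝ := ![![c.u, 1 - c.w], ![1 - c.u, c.w]]

/-- Coherent amplitude on the ground state. -/
noncomputable def k₀ : ℝ := c.l / Real.sqrt c.w

/-- Kraus operators. -/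
noncomputable def K : Fin 4 → Fin 2 → Fin 2 → ℝ :=
  ![![![c.k₀, 0], ![0, Real.sqrt c.w]],
    ![![Real.sqrt (c.u - c.k₀ ^ 2), 0], ![0, 0]],
    ![![0, Real.sqrt (1 - c.w)], ![0, 0]],
    ![![0, 0], ![Real.sqrt (1 - c.u), 0]]]

lemma k₀_nonneg : 0 ≤ c.k₀ := div_nonneg c.hl (Real.sqrt_nonneg _)

lemma k₀_mul : c.k₀ * Real.sqrt c.w = c.l := by
  rcases eq_or_lt_of_le c.hw with h | h
  · have hl0 : c.l = 0 := by
      have := c.hluw
      rw [← h, mul_zero] at this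
      exact pow_eq_zero_iff two_ne_zero |>.mp (le_antisymm this (sq_nonneg _))
    simp [k₀, hl0]
  · rw [k₀, div_mul_cancel₀ _ (Real.sqrt_pos.mpr h).ne']

lemma k₀_sq : c.k₀ ^ 2 ≤ c.u := by
  rcases eq_or_lt_of_le c.hw with h | h
  · simp [k₀, ← h, c.hu]
  · rw [k₀, div_pow, Real.sq_sqrt c.hw, div_le_iff₀ h]
    exact c.hluw

lemma chan_single (b b' z z' : Fin 2) :
    c.chan (Matrix.single z z' 1) b b' = ((∑ e, c.K e b z * c.K e b' z' : ℝ) : ℂ) := by
  have h1 := c.k₀_mul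
  have h2 : Real.sqrt (c.u - c.k₀ ^ 2) * Real.sqrt (c.u - c.k₀ ^ 2) = c.u - c.k₀ ^ 2 :=
    Real.mul_self_sqrt (sub_nonneg.mpr c.k₀_sq)
  have h3 : Real.sqrt (1 - c.w) * Real.sqrt (1 - c.w) = 1 - c.w :=
    Real.mul_self_sqrt (sub_nonneg.mpr c.hw')
  have h4 : Real.sqrt (1 - c.u) * Real.sqrt (1 - c.u) = 1 - c.u :=
    Real.mul_self_sqrt (sub_nonneg.mpr c.hu')
  have h5 : Real.sqrt c.w * Real.sqrt c.w = c.w := Real.mul_self_sqrt c.hw
  have h6 : (c.k₀ : ℂ) * (Real.sqrt c.w : ℂ) = (c.l : ℂ) := by exact_mod_cast h1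
  have h7 : (Real.sqrt c.w : ℂ) * (c.k₀ : ℂ) = (c.l : ℂ) := by rw [mul_comm]; exact h6
  fin_cases b <;> fin_cases b' <;> fin_cases z <;> fin_cases z' <;>
    simp [chan, K, Fin.sum_univ_four, ← Complex.ofReal_mul, h1, h2, h3, h4, h5, h6, h7,
      mul_comm (Real.sqrt c.w) c.k₀] <;> push_cast <;> ring_nf

lemma diag_single (b z z' : Fin 2) :
    c.chan (Matrix.single z z' 1) b b = if z = z' then (c.P b z : ℂ) else 0 := by
  fin_cases b <;> fin_cases z <;> fin_cases z' <;> simp [chan, P]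

lemma P_sum (z : Fin 2) : ∑ b, c.P b z = 1 := by
  fin_cases z <;> simp [P, Fin.sum_univ_two]

lemma P_nonneg (b z : Fin 2) : 0 ≤ c.P b z := by
  fin_cases b <;> fin_cases z <;> simp [P, c.hu, c.hu', c.hw, c.hw']

/-- The tensor power of the channel. -/
noncomputable def out (n : ℕ) := tensorPow c.chan n

/-- The amplitudes of a dilation of the tensor power. -/
noncomputable def dil (n : ℕ) (φ : (Fin n → Fin 2) → ℂ) :
    Matrix (Fin n → Fin 2) (Fin n → Fin 4) ℂ :=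
  Matrix.of fun x e => ∑ y, ((∏ i, c.K (e i) (x i) (y i) : ℝ) : ℂ) * φ y

lemma out_outer (n : ℕ) (φ ψ : (Fin n → Fin 2) → ℂ) :
    c.out n (vecMulVec φ (star ψ)) = c.dil n φ * (c.dil n ψ)ᴴ := by
  ext x x'
  simp only [out, tensorPow, of_apply, c.chan_single, Matrix.mul_apply, conjTranspose_apply, dil,
    star_sum, sum_mul, mul_sum, vecMulVec_apply, Pi.star_apply]
  rw [sum_comm (γ := Fin n → Fin 4)]
  conv_lhs => rw [sum_comm]
  refine sum_congr rfl fun y _ => ?_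
  rw [sum_comm (γ := Fin n → Fin 4)]
  refine sum_congr rfl fun y' _ => ?_
  rw [← Complex.ofReal_prod, Fintype.prod_sum, Complex.ofReal_sum, sum_mul]
  refine sum_congr rfl fun e _ => ?_
  rw [prod_mul_distrib]
  simp
  ring

lemma out_lin {α : Type} (s : Finset α) (n : ℕ) (r : α → ℂ)
    (ρ : α → Matrix (Fin n → Fin 2) (Fin n → Fin 2) ℂ) :
    c.out n (∑ a ∈ s, r a • ρ a) = ∑ a ∈ s, r a • c.out n (ρ a) := by
  ext x x'
  simp only [out, tensorPow, of_apply, Matrix.sum_apply, Matrix.smul_apply, smul_eq_mul, mul_sum]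
  refine (sum_congr rfl fun y _ => sum_comm).trans (sum_comm.trans ?_)
  exact sum_congr rfl fun a _ => sum_congr rfl fun y _ => sum_congr rfl fun y' _ => by ring

lemma out_sum {α : Type} (s : Finset α) (n : ℕ)
    (ρ : α → Matrix (Fin n → Fin 2) (Fin n → Fin 2) ℂ) :
    c.out n (∑ a ∈ s, ρ a) = ∑ a ∈ s, c.out n (ρ a) := by
  simpa using c.out_lin s n (fun _ => 1) ρ

lemma out_smul (n : ℕ) (r : ℂ) (ρ : Matrix (Fin n → Fin 2) (Fin n → Fin 2) ℂ) :
    c.out n (r • ρ) = r • c.out n ρ := by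
  simpa using c.out_lin {()} n (fun _ => r) (fun _ => ρ)

lemma psd_decomp {ι : Type} [Fintype ι] [DecidableEq ι] {ρ : Matrix ι ι ℂ} (h : ρ.PosSemidef) :
    ∃ v : Fin (Fintype.card ι) → ι → ℂ, ρ = ∑ j, vecMulVec (v j) (star (v j)) := by
  obtain ⟨G, hG⟩ := exists_gram h
  refine ⟨fun j i => G i j, ?_⟩
  ext a b
  simp [hG, Matrix.mul_apply, Matrix.sum_apply, vecMulVec_apply]

lemma out_psd (n : ℕ) {ρ : Matrix (Fin n → Fin 2) (Fin n → Fin 2) ℂ} (h : ρ.PosSemidef) :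
    (c.out n ρ).PosSemidef := by
  obtain ⟨v, rfl⟩ := psd_decomp h
  rw [out_sum]
  exact posSemidef_sum _ fun j _ => by rw [out_outer]; exact posSemidef_self_mul_conjTranspose _

lemma out_diag (n : ℕ) (f : Fin n → Fin 2 → ℂ)
    (ρ : Matrix (Fin n → Fin 2) (Fin n → Fin 2) ℂ) :
    ∑ x, (∏ i, f i (x i)) * c.out n ρ x x
      = ∑ y, ρ y y * ∏ i, ∑ b, f i b * (c.P b (y i) : ℂ) := by
  simp only [out, tensorPow, of_apply, mul_sum]
  rw [sum_comm]
  refine sum_congr rfl fun y _ => ?_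
  rw [sum_comm]
  have h : ∀ y' x : Fin n → Fin 2,
      (∏ i, f i (x i)) * ((∏ i, c.chan (Matrix.single (y i) (y' i) 1) (x i) (x i)) * ρ y y')
      = if y = y' then ρ y y' * ∏ i, f i (x i) * (c.P (x i) (y i) : ℂ) else 0 := by
    intro y' x
    by_cases hy : y = y'
    · subst hy
      simp [c.diag_single, prod_mul_distrib]
      ring
    · obtain ⟨i, hi⟩ := Function.ne_iff.mp hy
      have hz : ∏ j, c.chan (Matrix.single (y j) (y' j) 1) (x j) (x j) = 0 :=
        prod_eq_zero (mem_univ i) (by rw [c.diag_single, if_neg hi])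
      rw [if_neg hy, hz]
      simp
  simp only [h]
  rw [sum_eq_single y (fun y' _ hne => by simp [Ne.symm hne]) (by simp)]
  simp only [if_true]
  rw [Fintype.prod_sum, mul_sum]

lemma trace_out (n : ℕ) (ρ : Matrix (Fin n → Fin 2) (Fin n → Fin 2) ℂ) :
    trace (c.out n ρ) = trace ρ := by
  have h := c.out_diag n (fun _ _ => 1) ρ
  have h1 : ∀ z, ∑ b, (c.P b z : ℂ) = 1 := fun z => by exact_mod_cast c.P_sum z
  simpa [trace, h1] using h

lemma out_marg (n : ℕ) (ρ : Matrix (Fin n → Fin 2) (Fin n → Fin 2) ℂ) (i : Fin n) (b : Fin 2) :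
    ∑ x, (if x i = b then c.out n ρ x x else 0) = ∑ y, ρ y y * (c.P b (y i) : ℂ) := by
  have h := c.out_diag n (fun j z => if j = i then (if z = b then 1 else 0) else 1) ρ
  have h2 : ∀ j z, ∑ z', (if j = i then (if z' = b then (1 : ℂ) else 0) else 1) * (c.P z' z : ℂ)
      = if j = i then (c.P b z : ℂ) else 1 := by
    intro j z
    by_cases hj : j = i
    · simp [hj]
    · simp only [if_neg hj, one_mul]
      exact_mod_cast c.P_sum z
  simp only [h2, prod_ite_eq', mem_univ, if_true] at h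
  simpa [ite_mul] using h

/-- The equivalence splitting off the first site. -/
def split (n : ℕ) : (Fin n → Fin 2) ⊕ (Fin n → Fin 2) ≃ (Fin (n + 1) → Fin 2) where
  toFun := Sum.elim (fun x => Fin.cons (α := fun _ => Fin 2) 0 x)
    (fun x => Fin.cons (α := fun _ => Fin 2) 1 x)
  invFun x := if x 0 = 0 then Sum.inl (Fin.tail x) else Sum.inr (Fin.tail x)
  left_inv := by rintro (x | x) <;> simp [Fin.tail_cons]
  right_inv x := by
    have h : ∀ a : Fin 2, a ≠ 0 → a = 1 := by decide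
    by_cases hx : x 0 = 0
    · simp only [hx, if_true, Sum.elim_inl]
      conv_rhs => rw [← Fin.cons_self_tail x, hx]
    · simp only [hx, if_false, Sum.elim_inr]
      conv_rhs => rw [← Fin.cons_self_tail x, h _ hx]

lemma out_succ (n : ℕ) (ψ : (Fin (n + 1) → Fin 2) → ℂ) (b b' : Fin 2) (x x' : Fin n → Fin 2) :
    c.out (n + 1) (vecMulVec ψ (star ψ)) (Fin.cons b x) (Fin.cons b' x')
      = ∑ z, ∑ z', c.chan (Matrix.single z z' 1) b b'
          * (c.dil n (fun y => ψ (Fin.cons z y)) * (c.dil n (fun y => ψ (Fin.cons z' y)))ᴴ) x x' := by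
  simp only [← out_outer, out, tensorPow, of_apply, mul_sum]
  rw [← (Fin.consEquiv fun _ : Fin (n + 1) => Fin 2).sum_comp, Fintype.sum_prod_type]
  refine sum_congr rfl fun z _ => ?_
  rw [sum_comm (s := (univ : Finset (Fin 2)))]
  refine sum_congr rfl fun y _ => ?_
  rw [← (Fin.consEquiv fun _ : Fin (n + 1) => Fin 2).sum_comp, Fintype.sum_prod_type]
  refine sum_congr rfl fun z' _ => sum_congr rfl fun y' _ => ?_
  simp only [Fin.consEquiv, Equiv.coe_fn_mk, Fin.prod_univ_succ, Fin.cons_zero, Fin.cons_succ,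
    vecMulVec_apply, Pi.star_apply]
  ring

/-- Entropy of the output of an unnormalised pure qubit with populations `a`, `b`. -/
noncomputable def gbar (a b : ℝ) : ℝ :=
  sbar (c.chan !![(a : ℂ), (Real.sqrt a * Real.sqrt b : ℝ); (Real.sqrt a * Real.sqrt b : ℝ), b])

lemma sbar_step (n : ℕ) (ψ : (Fin (n + 1) → Fin 2) → ℂ) :
    c.gbar (nsq fun y => ψ (Fin.cons 0 y)) (nsq fun y => ψ (Fin.cons 1 y))
      + sbar (c.out n (vecMulVec (fun y => ψ (Fin.cons 0 y)) (star fun y => ψ (Fin.cons 0 y))))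
      + sbar (c.out n (vecMulVec (fun y => ψ (Fin.cons 1 y)) (star fun y => ψ (Fin.cons 1 y))))
      ≤ sbar (c.out (n + 1) (vecMulVec ψ (star ψ))) := by
  set φ₀ := fun y => ψ (Fin.cons 0 y) with hφ₀
  set φ₁ := fun y => ψ (Fin.cons 1 y) with hφ₁
  set e := Fintype.equivFin (Fin n → Fin 4)
  set G₀ := (c.dil n φ₀).submatrix id e.symm with hG₀
  set G₁ := (c.dil n φ₁).submatrix id e.symm with hG₁
  have hGG : ∀ φ φ' : (Fin n → Fin 2) → ℂ, (c.dil n φ).submatrix id e.symm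
      * ((c.dil n φ').submatrix id e.symm)ᴴ = c.dil n φ * (c.dil n φ')ᴴ := fun φ φ' => by
    rw [conjTranspose_submatrix, submatrix_mul_equiv, submatrix_id_id]
  set A := c.out n (vecMulVec φ₀ (star φ₀)) with hA
  set C := c.out n (vecMulVec φ₁ (star φ₁)) with hC
  have hA' : A = G₀ * G₀ᴴ := by rw [hA, out_outer, hG₀, hGG]
  have hC' : C = G₁ * G₁ᴴ := by rw [hC, out_outer, hG₁, hGG]
  have hAp : A.PosSemidef := hA' ▸ gram_psd G₀
  have hCp : C.PosSemidef := hC' ▸ gram_psd G₁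
  have hd0 : 0 ≤ c.u - c.k₀ ^ 2 := sub_nonneg.mpr c.k₀_sq
  have hw1 : 0 ≤ 1 - c.w := sub_nonneg.mpr c.hw'
  have hu1 : 0 ≤ 1 - c.u := sub_nonneg.mpr c.hu'
  have hA0 : ∀ r : ℝ, 0 ≤ r → ((r : ℂ) • A).PosSemidef := fun r hr =>
    hAp.smul (Complex.zero_le_real.mpr hr)
  have hC0 : ∀ r : ℝ, 0 ≤ r → ((r : ℂ) • C).PosSemidef := fun r hr =>
    hCp.smul (Complex.zero_le_real.mpr hr)
  set D := ((c.u - c.k₀ ^ 2 : ℝ) : ℂ) • A + ((1 - c.w : ℝ) : ℂ) • C with hD
  set E := ((1 - c.u : ℝ) : ℂ) • A with hE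
  have hDp : D.PosSemidef := (hA0 _ hd0).add (hC0 _ hw1)
  have hEp : E.PosSemidef := hA0 _ hu1
  set G := (c.k₀ : ℂ) • G₀ with hG
  set H := (Real.sqrt c.w : ℂ) • G₁ with hH
  have hGt : G * Gᴴ = ((c.k₀ ^ 2 : ℝ) : ℂ) • A := by
    rw [hA', hG, conjTranspose_smul, Matrix.smul_mul, Matrix.mul_smul, smul_smul]
    simp [pow_two]
  have hHt : H * Hᴴ = ((c.w : ℝ) : ℂ) • C := by
    rw [hC', hH, conjTranspose_smul, Matrix.smul_mul, Matrix.mul_smul, smul_smul]
    simp [← Complex.ofReal_mul, Real.mul_self_sqrt c.hw]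
  have hGH : G * Hᴴ = (c.l : ℂ) • (c.dil n φ₀ * (c.dil n φ₁)ᴴ) := by
    rw [hG, hH, conjTranspose_smul, Matrix.smul_mul, Matrix.mul_smul, smul_smul, hG₀, hG₁, hGG]
    simp [← Complex.ofReal_mul, c.k₀_mul]
  have hHG : H * Gᴴ = (c.l : ℂ) • (c.dil n φ₁ * (c.dil n φ₀)ᴴ) := by
    rw [hG, hH, conjTranspose_smul, Matrix.smul_mul, Matrix.mul_smul, smul_smul, hG₀, hG₁, hGG]
    simp [← Complex.ofReal_mul, mul_comm (Real.sqrt c.w) c.k₀, c.k₀_mul]
  have hM : (c.out (n + 1) (vecMulVec ψ (star ψ))).submatrix (split n) (split n)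
      = blockM G H D E := by
    have hAd : A = c.dil n φ₀ * (c.dil n φ₀)ᴴ := by rw [hA, out_outer]
    have hCd : C = c.dil n φ₁ * (c.dil n φ₁)ᴴ := by rw [hC, out_outer]
    ext (x | x) (x' | x') <;>
      simp [split, out_succ, Fin.sum_univ_two, blockM, hGt, hHt, hGH, hHG, hD, hE, chan, hAd, hCd,
        φ₀, φ₁] <;> ring
  have hineq := block_ineq G H hDp hEp
  set a := nsq φ₀ with ha
  set b := nsq φ₁ with hb
  have htr : ∀ φ : (Fin n → Fin 2) → ℂ,
      trace (c.out n (vecMulVec φ (star φ))) = (nsq φ : ℂ) := fun φ => by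
    rw [trace_out, trace_vecMulVec, dotProduct_comm, star_dot_self]
  have hta : (trace A).re = a := by rw [hA, htr]; simp [ha]
  have htb : (trace C).re = b := by rw [hC, htr]; simp [hb]
  have hgG : gtr G = c.k₀ ^ 2 * a := by
    rw [gtr, hGt, trace_smul, smul_eq_mul, Complex.re_ofReal_mul, hta]
  have hgH : gtr H = c.w * b := by
    rw [gtr, hHt, trace_smul, smul_eq_mul, Complex.re_ofReal_mul, htb]
  have hgD : (trace D).re = (c.u - c.k₀ ^ 2) * a + (1 - c.w) * b := by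
    rw [hD, trace_add, trace_smul, trace_smul, smul_eq_mul, smul_eq_mul, Complex.add_re,
      Complex.re_ofReal_mul, Complex.re_ofReal_mul, hta, htb]
  have hgE : (trace E).re = (1 - c.u) * a := by
    rw [hE, trace_smul, smul_eq_mul, Complex.re_ofReal_mul, hta]
  have ha0 : 0 ≤ a := nsq_nonneg _
  have hb0 : 0 ≤ b := nsq_nonneg _
  rw [hgG, hgH, hgD, hgE] at hineq
  -- the scalar block
  set x₀ := c.k₀ ^ 2 * a
  set x₁ := c.w * b
  set y₀ := (c.u - c.k₀ ^ 2) * a + (1 - c.w) * b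
  set y₁ := (1 - c.u) * a
  have hx₀ : 0 ≤ x₀ := mul_nonneg (sq_nonneg _) ha0
  have hx₁ : 0 ≤ x₁ := mul_nonneg c.hw hb0
  set m := blockM (one1 (Real.sqrt x₀)) (one1 (Real.sqrt x₁)) (one1 y₀) (one1 y₁) with hm
  set f : Fin 1 ⊕ Fin 1 ≃ Fin 2 := finSumFinEquiv
  set N := c.chan !![(a : ℂ), (Real.sqrt a * Real.sqrt b : ℝ); (Real.sqrt a * Real.sqrt b : ℝ), b]
    with hN
  have hoff : Real.sqrt x₀ * Real.sqrt x₁ = c.l * (Real.sqrt a * Real.sqrt b) := by
    rw [Real.sqrt_mul (sq_nonneg _), Real.sqrt_mul c.hw, Real.sqrt_sq c.k₀_nonneg, ← c.k₀_mul]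
    ring
  have hmN : N.submatrix f f = m := by
    have hoff' : (Real.sqrt x₀ : ℂ) * (Real.sqrt x₁ : ℂ)
        = (c.l : ℂ) * ((Real.sqrt a : ℂ) * (Real.sqrt b : ℂ)) := by exact_mod_cast hoff
    simp only [x₀, x₁] at hoff'
    rw [hm, blockM, one1_gram hx₀, one1_gram hx₁]
    ext (i | i) (j | j) <;> fin_cases i <;> fin_cases j <;>
      simp [f, hN, chan, one1, x₀, x₁, y₀, y₁, finSumFinEquiv] <;>
      first | ring1 | (linear_combination (-1 : ℂ) * hoff')
  have hscal : defect (one1 (Real.sqrt x₀)) (one1 (Real.sqrt x₁)) (one1 y₀) (one1 y₁)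
      = Real.negMulLog x₀ + Real.negMulLog y₀ + Real.negMulLog x₁ + Real.negMulLog y₁ - ent N := by
    rw [defect, one1_gram hx₀, one1_gram hx₁, ent_one1, ent_one1, ent_one1, ent_one1, ← hm,
      ← hmN, ent_submatrix]
  have hNt : (trace N).re = a + b := by
    simp [hN, chan, Matrix.trace, Fin.sum_univ_two]; ring
  have hout : ent (blockM G H D E) = ent (c.out (n + 1) (vecMulVec ψ (star ψ))) := by
    rw [← hM, ent_submatrix]
  have htot : (trace (c.out (n + 1) (vecMulVec ψ (star ψ)))).re = a + b := by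
    rw [← trace_submatrix (split n), hM, blockM]
    simp only [Matrix.trace, Fintype.sum_sum_type, diag_apply, fromBlocks_apply₁₁,
      fromBlocks_apply₂₂, Complex.add_re]
    change (trace (G * Gᴴ + D)).re + (trace (H * Hᴴ + E)).re = a + b
    rw [trace_add (G * Gᴴ) D, trace_add (H * Hᴴ) E, Complex.add_re, Complex.add_re, hgD, hgE,
      show (trace (G * Gᴴ)).re = gtr G from rfl, show (trace (H * Hᴴ)).re = gtr H from rfl,
      hgG, hgH]
    simp only [x₀, x₁, y₀, y₁]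
    ring
  rw [hscal, defect, hout] at hineq
  -- entropies of the pieces
  have sA : ∀ r : ℝ, ent ((r : ℂ) • A) = r * sbar A + Real.negMulLog (r * a) := by
    intro r
    rw [ent_smul hAp.1, sbar, hta, Real.negMulLog_mul]; ring
  have sC : ∀ r : ℝ, ent ((r : ℂ) • C) = r * sbar C + Real.negMulLog (r * b) := by
    intro r
    rw [ent_smul hCp.1, sbar, htb, Real.negMulLog_mul]; ring
  have sD : (c.u - c.k₀ ^ 2) * sbar A + (1 - c.w) * sbar C ≤ ent D - Real.negMulLog y₀ := by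
    have := sbar_superadd (hA0 _ hd0) (hC0 _ hw1)
    rw [sbar_smul hAp.1, sbar_smul hCp.1, ← hD] at this
    have h2 : sbar D = ent D - Real.negMulLog y₀ := by rw [sbar, hgD]
    linarith
  rw [hGt, hHt, hE, sA, sA, sC] at hineq
  simp only [x₀, x₁, y₁] at hineq
  rw [gbar, ← hN]
  have g1 : sbar N = ent N - Real.negMulLog (a + b) := by rw [sbar, hNt]
  have g2 : sbar (c.out (n + 1) (vecMulVec ψ (star ψ)))
      = ent (c.out (n + 1) (vecMulVec ψ (star ψ))) - Real.negMulLog (a + b) := by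
    rw [sbar, htot]
  rw [g1, g2]
  linarith

end Par

end Vale.Agent.P358
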