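import Vale.Agent.P358.Spec

namespace Vale.Agent.P358

open Matrix Finset MeasureTheory Filter Topology
open scoped ComplexOrder ENNReal

variable {ι : Type} [Fintype ι] [DecidableEq ι] {M : ℕ}

/-- The sorted eigenvalues of the pencil. -/
noncomputable def lam (G : Matrix ι (Fin M) ℂ) {D : Matrix ι ι ℂ} (hD : D.PosSemidef)
    (k : Fin (Fintype.card ι)) (σ : ℝ) : ℝ :=
  (pen_herm G hD σ).eigenvalues₀ k

/-- The trace of the positive part of the pencil. -/
noncomputable def alpha (G : Matrix ι (Fin M) ℂ) {D : Matrix ι ι ℂ} (hD : D.PosSemidef)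
    (σ : ℝ) : ℝ :=
  ∑ k, max (lam G hD k σ) 0

/-- The counting function in the two variables. -/
noncomputable def count2 (G : Matrix ι (Fin M) ℂ) {D : Matrix ι ι ℂ} (hD : D.PosSemidef)
    (s t : ℝ) : ℝ≥0∞ :=
  ∑ k, if t < lam G hD k s⁻¹ then 1 else 0

/-- The equivalence between sorted and unsorted eigenvalue indices. -/
noncomputable def idx : Fin (Fintype.card ι) ≃ ι := Fintype.equivOfCardEq (Fintype.card_fin _)

omit [DecidableEq ι] in
lemma gram_psd (G : Matrix ι (Fin M) ℂ) : (G * Gᴴ).PosSemidef :=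
  posSemidef_self_mul_conjTranspose G

lemma eigenvalues_idx {X : Matrix ι ι ℂ} (hX : X.IsHermitian) (k : Fin (Fintype.card ι)) :
    hX.eigenvalues (idx k) = hX.eigenvalues₀ k := by
  simp [IsHermitian.eigenvalues, idx]

lemma cnt_eq_sorted {X : Matrix ι ι ℂ} (hX : X.IsHermitian) (t : ℝ) :
    cnt hX t = (univ.filter fun k => t < hX.eigenvalues₀ k).card := by
  refine (card_equiv (idx (ι := ι)) fun k => ?_).symm
  simp [eigenvalues_idx]

lemma cnt_pen_mono (G : Matrix ι (Fin M) ℂ) {D D' : Matrix ι ι ℂ} (hD : D.PosSemidef)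
    (hD' : D'.PosSemidef) (hle : ∀ v, qf D' v ≤ qf D v) {σ σ' : ℝ} (hσ : σ ≤ σ') (t : ℝ) :
    cnt (pen_herm G hD σ) t ≤ cnt (pen_herm G hD' σ') t := by
  refine cnt_le_of_form _ _ t t LinearMap.id fun v hv => ?_
  simp only [LinearMap.id_coe, id_eq, qf_sub, qf_smul, qf_gram] at hv ⊢
  nlinarith [hle v, nsq_nonneg (Gᴴ *ᵥ v)]

lemma lam_mono (G : Matrix ι (Fin M) ℂ) {D : Matrix ι ι ℂ} (hD : D.PosSemidef)
    (k : Fin (Fintype.card ι)) : Monotone (lam G hD k) := by
  intro σ σ' hσ
  by_contra h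
  push Not at h
  set t := lam G hD k σ' with ht
  have h1 := cnt_pen_mono G hD hD (fun _ => le_rfl) hσ t
  rw [cnt_eq_sorted, cnt_eq_sorted] at h1
  have h2 : Iic k ⊆ univ.filter fun j => t < (pen_herm G hD σ).eigenvalues₀ j := by
    intro j hj
    simp only [mem_filter, mem_univ, true_and]
    exact lt_of_lt_of_le h ((pen_herm G hD σ).eigenvalues₀_antitone (mem_Iic.mp hj))
  have h3 : (univ.filter fun j => t < (pen_herm G hD σ').eigenvalues₀ j) ⊆ Iio k := by
    intro j hj
    simp only [mem_filter, mem_univ, true_and] at hj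
    refine mem_Iio.mpr (lt_of_not_ge fun hkj => ?_)
    exact absurd hj (not_lt.mpr ((pen_herm G hD σ').eigenvalues₀_antitone hkj))
  have h4 := (card_le_card h2).trans (h1.trans (card_le_card h3))
  simp at h4

lemma count2_eq (G : Matrix ι (Fin M) ℂ) {D : Matrix ι ι ℂ} (hD : D.PosSemidef) (s t : ℝ) :
    count2 G hD s t = (cnt (pen_herm G hD s⁻¹) t : ℝ≥0∞) := by
  rw [cnt_eq_sorted, count2, sum_boole]
  rfl

lemma measurable_ite_lt {α : Type} [MeasurableSpace α] {f g : α → ℝ} (hf : Measurable f)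
    (hg : Measurable g) : Measurable fun x => if f x < g x then (1 : ℝ≥0∞) else 0 :=
  Measurable.ite (measurableSet_lt hf hg) measurable_const measurable_const

lemma measurable_count2 (G : Matrix ι (Fin M) ℂ) {D : Matrix ι ι ℂ} (hD : D.PosSemidef) :
    Measurable (Function.uncurry (count2 G hD)) := by
  change Measurable fun z : ℝ × ℝ => ∑ k, if z.2 < lam G hD k z.1⁻¹ then (1 : ℝ≥0∞) else 0
  refine Finset.measurable_fun_sum _ fun k _ => ?_
  exact measurable_ite_lt measurable_snd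
    (((lam_mono G hD k).measurable.comp measurable_inv).comp measurable_fst)

lemma alpha_meas (G : Matrix ι (Fin M) ℂ) {D : Matrix ι ι ℂ} (hD : D.PosSemidef) :
    Measurable fun s : ℝ => alpha G hD s⁻¹ := by
  refine Finset.measurable_fun_sum _ fun k _ => ?_
  exact ((lam_mono G hD k).measurable.comp measurable_inv).max measurable_const

lemma count2_integral (G : Matrix ι (Fin M) ℂ) {D : Matrix ι ι ℂ} (hD : D.PosSemidef) (s : ℝ) :
    ∫⁻ t in Set.Ioi (0 : ℝ), count2 G hD s t = ENNReal.ofReal (alpha G hD s⁻¹) := by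
  unfold count2 alpha
  rw [lintegral_finsetSum _ fun k _ => measurable_ite_lt (g := fun _ => lam G hD k s⁻¹)
      measurable_id' measurable_const,
    ENNReal.ofReal_sum_of_nonneg fun k _ => le_max_right _ _]
  refine sum_congr rfl fun k _ => ?_
  rw [lintegral_Ioi_lt, ENNReal.ofReal_max, ENNReal.ofReal_zero]
  simp

lemma alpha_nonneg (G : Matrix ι (Fin M) ℂ) {D : Matrix ι ι ℂ} (hD : D.PosSemidef) (σ : ℝ) :
    0 ≤ alpha G hD σ := sum_nonneg fun _ _ => le_max_right _ _

lemma lam_sum (G : Matrix ι (Fin M) ℂ) {D : Matrix ι ι ℂ} (hD : D.PosSemidef) (σ : ℝ) :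
    ∑ k, lam G hD k σ = σ * (trace (G * Gᴴ)).re - (trace D).re := by
  have h1 : ∑ k, lam G hD k σ = ∑ i, (pen_herm G hD σ).eigenvalues i :=
    Fintype.sum_equiv (idx (ι := ι)) _ _ fun k => (eigenvalues_idx _ k).symm
  rw [h1, sum_eig]
  simp

lemma alpha_ge (G : Matrix ι (Fin M) ℂ) {D : Matrix ι ι ℂ} (hD : D.PosSemidef) (σ : ℝ) :
    max (σ * (trace (G * Gᴴ)).re - (trace D).re) 0 ≤ alpha G hD σ := by
  refine max_le ?_ (alpha_nonneg G hD σ)
  rw [← lam_sum G hD σ]
  exact sum_le_sum fun k _ => le_max_left _ _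

lemma count2_le_zero (G : Matrix ι (Fin M) ℂ) {D : Matrix ι ι ℂ} (hD : D.PosSemidef) (s t : ℝ) :
    count2 G hD s t ≤ count2 G PosSemidef.zero s t := by
  rw [count2_eq, count2_eq]
  exact Nat.cast_le.mpr (cnt_pen_mono G hD PosSemidef.zero
    (fun v => by simpa [qf] using qf_nonneg hD v) le_rfl t)

lemma alpha_zero (G : Matrix ι (Fin M) ℂ) {σ : ℝ} (hσ : 0 ≤ σ) :
    alpha G (PosSemidef.zero : (0 : Matrix ι ι ℂ).PosSemidef) σ = σ * (trace (G * Gᴴ)).re := by
  have h : ∀ k, 0 ≤ lam G (PosSemidef.zero : (0 : Matrix ι ι ℂ).PosSemidef) k σ := by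
    intro k
    unfold lam
    rw [← eigenvalues_idx]
    have hp : ((σ : ℂ) • (G * Gᴴ) - 0).PosSemidef := by
      rw [sub_zero]
      exact (gram_psd G).smul (by exact_mod_cast hσ)
    exact hp.eigenvalues_nonneg _
  rw [alpha, sum_congr rfl fun k _ => max_eq_left (h k), lam_sum]
  simp

lemma alpha_le (G : Matrix ι (Fin M) ℂ) {D : Matrix ι ι ℂ} (hD : D.PosSemidef) {σ : ℝ}
    (hσ : 0 < σ) : alpha G hD σ ≤ σ * (trace (G * Gᴴ)).re := by
  rw [← alpha_zero G hσ.le]
  have h := lintegral_mono (μ := volume.restrict (Set.Ioi (0 : ℝ)))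
    (fun t => count2_le_zero G hD σ⁻¹ t)
  rwa [count2_integral, count2_integral, inv_inv,
    ENNReal.ofReal_le_ofReal_iff (alpha_nonneg _ _ _)] at h

lemma min_card_eq {p q : Fin M → Prop} [DecidablePred p] [DecidablePred q]
    (hp : ∀ i j, i ≤ j → p j → p i) (hq : ∀ i j, i ≤ j → q j → q i) :
    min ((univ.filter p).card : ℝ≥0∞) ((univ.filter q).card : ℝ≥0∞)
      = ∑ k, (if p k then 1 else 0) * (if q k then 1 else 0) := by
  have h := (Nat.mono_cast (α := ℝ≥0∞)).map_min (a := (univ.filter p).card)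
    (b := (univ.filter q).card)
  rw [← h, ← card_filter_and hp hq, ← sum_boole]
  refine sum_congr rfl fun k _ => ?_
  by_cases h1 : p k <;> simp [h1]

lemma spec_log (G : Matrix ι (Fin M) ℂ) {D : Matrix ι ι ℂ} (hD : D.PosSemidef) {t : ℝ}
    (ht : 0 < t) :
    0 ≤ ld (G * Gᴴ + D) t - ld D t ∧
    ∫⁻ s in Set.Ioi (0 : ℝ), wt s * count2 G hD s t
      = ENNReal.ofReal (ld (G * Gᴴ + D) t - ld D t) := by
  obtain ⟨U, p, -, -, -, hp0, hp1, -, hsum, hcnt⟩ := spec_data G hD ht
  have hf : ∀ k, 0 ≤ p k / (1 - p k) := fun k => div_nonneg (hp0 k) (sub_pos.mpr (hp1 k)).le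
  have hlog : ∀ k, Real.log (1 + p k / (1 - p k)) = -Real.log (1 - p k) := by
    intro k
    have hne : 1 - p k ≠ 0 := (sub_pos.mpr (hp1 k)).ne'
    rw [show 1 + p k / (1 - p k) = (1 - p k)⁻¹ by field_simp; ring, Real.log_inv]
  refine ⟨?_, ?_⟩
  · rw [← hsum]
    exact sum_nonneg fun k _ => by
      rw [← hlog]
      exact Real.log_nonneg (by linarith [hf k])
  · have heq : ∀ s ∈ Set.Ioi (0 : ℝ), wt s * count2 G hD s t
        = ∑ k, wt s * (if s < p k / (1 - p k) then 1 else 0) := by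
      intro s hs
      rw [← mul_sum, sum_boole, hcnt s hs, count2_eq]
    have hm : ∀ k, Measurable fun s => wt s * (if s < p k / (1 - p k) then 1 else 0) :=
      fun k => measurable_wt.mul (measurable_ite_lt measurable_id' measurable_const)
    rw [setLIntegral_congr_fun measurableSet_Ioi heq, lintegral_finsetSum _ fun k _ => hm k,
      ← hsum, ENNReal.ofReal_sum_of_nonneg]
    · refine sum_congr rfl fun k _ => ?_
      rw [wt_integral _ (hf k), hlog]
    · intro k _
      rw [← hlog]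
      exact Real.log_nonneg (by linarith [hf k])

lemma sub_integral (G : Matrix ι (Fin M) ℂ) {D : Matrix ι ι ℂ} (hD : D.PosSemidef) :
    0 ≤ ent (G * Gᴴ) + ent D - ent (G * Gᴴ + D) ∧
    ∫⁻ s in Set.Ioi (0 : ℝ), wt s * ENNReal.ofReal
        (s⁻¹ * (trace (G * Gᴴ)).re - alpha G hD s⁻¹)
      = ENNReal.ofReal (ent (G * Gᴴ) + ent D - ent (G * Gᴴ + D)) := by
  set A := G * Gᴴ with hA
  have hA0 : A.PosSemidef := gram_psd G
  have hAD := hA0.add hD
  have hz : (0 : Matrix ι ι ℂ).PosSemidef := PosSemidef.zero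
  set c : (ι ⊕ ι) ⊕ (ι ⊕ ι) → ℝ := Sum.elim (fun _ => 1) (fun _ => -1) with hc
  set l : (ι ⊕ ι) ⊕ (ι ⊕ ι) → ℝ := Sum.elim (Sum.elim hA0.1.eigenvalues hD.1.eigenvalues)
    (Sum.elim hAD.1.eigenvalues (fun _ => 0)) with hl
  have hsum : ∀ f : ℝ → ℝ, ∑ i, c i * f (l i) = (∑ i, f (hA0.1.eigenvalues i))
      + (∑ i, f (hD.1.eigenvalues i)) - (∑ i, f (hAD.1.eigenvalues i))
      - Fintype.card ι * f 0 := by
    intro f
    simp [hc, hl, Fintype.sum_sum_type]
    ring
  have hh : ∀ t, ∑ i, c i * Real.log (t + l i)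
      = (ld (A + 0) t - ld (0 : Matrix ι ι ℂ) t) - (ld (A + D) t - ld D t) := by
    intro t
    simp only [add_zero]
    rw [hsum (fun x => Real.log (t + x)), ld_zero, ld, ld, ld, dif_pos hA0.1,
      dif_pos hAD.1, dif_pos hD.1, add_zero]
    ring
  have hle : ∀ t, 0 < t → ld (A + D) t - ld D t ≤ ld (A + 0) t - ld (0 : Matrix ι ι ℂ) t := by
    intro t ht
    rw [← ENNReal.ofReal_le_ofReal_iff (spec_log G hz ht).1, hA, ← (spec_log G hD ht).2,
      ← (spec_log G hz ht).2]
    exact lintegral_mono fun s => mul_le_mul' le_rfl (count2_le_zero G hD s t)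
  have hl0 : ∀ i, 0 ≤ l i := by
    rintro ((i | i) | (i | i))
    · exact hA0.eigenvalues_nonneg i
    · exact hD.eigenvalues_nonneg i
    · exact hAD.eigenvalues_nonneg i
    · exact le_rfl
  have h1 := log_comb_integral c l hl0
    (by simp [hc, Fintype.sum_sum_type])
    (by
      rw [hsum (fun x => x), sum_eig, sum_eig, sum_eig]
      simp)
    (fun t ht => by rw [hh]; linarith [hle t ht])
  have hval : ∑ i, c i * Real.negMulLog (l i) = ent A + ent D - ent (A + D) := by
    rw [hsum Real.negMulLog, ent, ent, ent, dif_pos hA0.1, dif_pos hAD.1, dif_pos hD.1]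
    simp
  rw [hval] at h1
  refine ⟨h1.2, ?_⟩
  rw [← h1.1]
  have hpt : ∀ t ∈ Set.Ioi (0 : ℝ), ENNReal.ofReal (∑ i, c i * Real.log (t + l i))
      = ∫⁻ s in Set.Ioi (0 : ℝ), (wt s * count2 G hz s t - wt s * count2 G hD s t) := by
    intro t ht
    have hm : Measurable fun s => wt s * count2 G hD s t := measurable_wt.mul
      ((measurable_count2 G hD).comp (measurable_id.prodMk measurable_const))
    rw [lintegral_sub hm
        (by rw [(spec_log G hD ht).2]; exact ENNReal.ofReal_ne_top)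
        (Eventually.of_forall fun s => mul_le_mul' le_rfl (count2_le_zero G hD s t)),
      (spec_log G hD ht).2, (spec_log G hz ht).2, hh,
      ENNReal.ofReal_sub _ (spec_log G hD ht).1]
  rw [setLIntegral_congr_fun measurableSet_Ioi hpt, lintegral_lintegral_swap]
  swap
  · exact (((measurable_wt.comp measurable_snd).mul
      ((measurable_count2 G hz).comp (measurable_snd.prodMk measurable_fst))).sub
      ((measurable_wt.comp measurable_snd).mul
      ((measurable_count2 G hD).comp (measurable_snd.prodMk measurable_fst)))).aemeasurable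
  refine setLIntegral_congr_fun measurableSet_Ioi fun s hs => ?_
  have m1 : Measurable fun t => count2 G hD s t :=
    (measurable_count2 G hD).comp (measurable_const.prodMk measurable_id)
  have m0 : Measurable fun t => count2 G hz s t :=
    (measurable_count2 G hz).comp (measurable_const.prodMk measurable_id)
  rw [lintegral_sub (m1.const_mul _)
    (by
      rw [lintegral_const_mul _ m1, count2_integral]
      exact ENNReal.mul_ne_top ENNReal.ofReal_ne_top ENNReal.ofReal_ne_top)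
    (Eventually.of_forall fun t => mul_le_mul' le_rfl (count2_le_zero G hD s t)),
    lintegral_const_mul _ m1, lintegral_const_mul _ m0,
    count2_integral, count2_integral, alpha_zero G (inv_nonneg.mpr (le_of_lt hs)),
    ← ENNReal.mul_sub (a := wt s) (fun _ _ => ENNReal.ofReal_ne_top),
    ← ENNReal.ofReal_sub _ (alpha_nonneg _ _ _)]

/-- The two-block matrix. -/
noncomputable def blockM (G H : Matrix ι (Fin M) ℂ) (D E : Matrix ι ι ℂ) :
    Matrix (ι ⊕ ι) (ι ⊕ ι) ℂ :=
  fromBlocks (G * Gᴴ + D) (G * Hᴴ) (H * Gᴴ) (H * Hᴴ + E)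

lemma blockM_psd (G H : Matrix ι (Fin M) ℂ) {D E : Matrix ι ι ℂ} (hD : D.PosSemidef)
    (hE : E.PosSemidef) : (blockM G H D E).PosSemidef := by
  have h1 : (fromBlocks D 0 0 E).PosSemidef := by
    refine PosSemidef.of_dotProduct_mulVec_nonneg ?_ fun x => ?_
    · exact IsHermitian.fromBlocks hD.1 (by simp) hE.1
    · rw [fromBlocks_mulVec, ← Sum.elim_comp_inl_inr (star x), sumElim_dotProduct_sumElim]
      simp only [zero_mulVec, add_zero, zero_add]
      exact add_nonneg (hD.dotProduct_mulVec_nonneg (x ∘ Sum.inl))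
        (hE.dotProduct_mulVec_nonneg (x ∘ Sum.inr))
  have h2 : blockM G H D E = fromRows G H * (fromRows G H)ᴴ + fromBlocks D 0 0 E := by
    rw [conjTranspose_fromRows_eq_fromCols_conjTranspose, fromRows_mul_fromCols, fromBlocks_add,
      blockM]
    simp
  rw [h2]
  exact (posSemidef_self_mul_conjTranspose _).add h1

lemma coupling_data (G H : Matrix ι (Fin M) ℂ) {D E : Matrix ι ι ℂ} (hD : D.PosSemidef)
    (hE : E.PosSemidef) {t : ℝ} (ht : 0 < t) :
    ∃ p q : Fin M → ℝ,
      0 ≤ ld (G * Gᴴ + D) t + ld (H * Hᴴ + E) t - ld (blockM G H D E) t ∧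
      ld (G * Gᴴ + D) t + ld (H * Hᴴ + E) t - ld (blockM G H D E) t
          ≤ ∑ k, -Real.log (1 - p k * q k) ∧
      (M = 1 → ld (G * Gᴴ + D) t + ld (H * Hᴴ + E) t - ld (blockM G H D E) t
          = ∑ k, -Real.log (1 - p k * q k)) ∧
      ENNReal.ofReal (∑ k, -Real.log (1 - p k * q k))
        = ∫⁻ f in Set.Ioi (0 : ℝ), ∫⁻ g in Set.Ioi (0 : ℝ),
            ker f g * min (count2 G hD f t) (count2 H hE g t) := by
  obtain ⟨U, p, hU, hU', hp, hp0, hp1, hPd, -, hpc⟩ := spec_data G hD ht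
  obtain ⟨V, q, hV, hV', hq, hq0, hq1, hQd, -, hqc⟩ := spec_data H hE ht
  obtain ⟨r, hr, hr1, hdet, hle⟩ := det_one_sub_mul_bound hU hU' hV hV' hp hp0 hp1 hq hq0 hq1
  refine ⟨p, q, ?_⟩
  rw [← hPd, ← hQd] at hdet
  set W₁ := (t : ℂ) • (1 : Matrix ι ι ℂ) + (G * Gᴴ + D) with hW₁
  set W₂ := (t : ℂ) • (1 : Matrix ι ι ℂ) + (H * Hᴴ + E) with hW₂
  have d₁ := det_add_scalar ((gram_psd G).add hD) ht
  have d₂ := det_add_scalar ((gram_psd H).add hE) ht
  have dM := det_add_scalar (blockM_psd G H hD hE) ht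
  rw [← hW₁] at d₁
  rw [← hW₂] at d₂
  have u₁ : IsUnit W₁.det := by
    rw [d₁]; exact isUnit_iff_ne_zero.mpr (by exact_mod_cast (Real.exp_pos _).ne')
  have u₂ : IsUnit W₂.det := by
    rw [d₂]; exact isUnit_iff_ne_zero.mpr (by exact_mod_cast (Real.exp_pos _).ne')
  let _i : Invertible W₁ := invertibleOfIsUnitDet W₁ u₁
  have hMd : det ((t : ℂ) • 1 + blockM G H D E)
      = det W₁ * (det W₂ * det (1 - Gᴴ * W₁⁻¹ * G * (Hᴴ * W₂⁻¹ * H))) := by
    have e : (t : ℂ) • 1 + blockM G H D E = fromBlocks W₁ (G * Hᴴ) (H * Gᴴ) W₂ := by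
      rw [blockM, ← fromBlocks_one, fromBlocks_smul, fromBlocks_add, smul_zero, zero_add,
        zero_add]
    rw [e, det_fromBlocks₁₁, invOf_eq_nonsing_inv]
    congr 1
    have e2 : W₂ - H * Gᴴ * W₁⁻¹ * (G * Hᴴ)
        = W₂ * (1 - (W₂⁻¹ * H) * (Gᴴ * W₁⁻¹ * G * Hᴴ)) := by
      rw [Matrix.mul_sub, Matrix.mul_one, ← Matrix.mul_assoc W₂, ← Matrix.mul_assoc W₂,
        mul_nonsing_inv _ u₂, Matrix.one_mul]
      simp only [Matrix.mul_assoc]
    rw [e2, det_mul, det_one_sub_mul_comm]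
    simp only [Matrix.mul_assoc]
  rw [dM, d₁, d₂, hdet] at hMd
  have h3 : Real.exp (ld (blockM G H D E) t)
      = Real.exp (ld (G * Gᴴ + D) t) * (Real.exp (ld (H * Hᴴ + E) t) * r) := by
    exact_mod_cast hMd
  have h4 := congrArg Real.log h3
  rw [Real.log_mul (Real.exp_pos _).ne' (mul_pos (Real.exp_pos _) hr).ne',
    Real.log_mul (Real.exp_pos _).ne' hr.ne', Real.log_exp, Real.log_exp, Real.log_exp] at h4
  have hf : ∀ k, 0 ≤ p k / (1 - p k) := fun k => div_nonneg (hp0 k) (sub_pos.mpr (hp1 k)).le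
  have hg : ∀ k, 0 ≤ q k / (1 - q k) := fun k => div_nonneg (hq0 k) (sub_pos.mpr (hq1 k)).le
  have hpq : ∀ k, p k * q k < 1 := fun k =>
    lt_of_le_of_lt (mul_le_of_le_one_right (hp0 k) (hq1 k).le) (hp1 k)
  have hnn : ∀ k, 0 ≤ -Real.log (1 - p k * q k) := fun k =>
    neg_nonneg.mpr (Real.log_nonpos (sub_pos.mpr (hpq k)).le
      (by linarith [mul_nonneg (hp0 k) (hq0 k)]))
  refine ⟨by linarith [Real.log_nonpos hr.le hr1], by linarith, ?_, ?_⟩
  · intro hM
    subst hM
    have e1 : det (1 - Gᴴ * W₁⁻¹ * G * (Hᴴ * W₂⁻¹ * H)) = ((1 - p 0 * q 0 : ℝ) : ℂ) := by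
      have hu : U 0 0 * star (U 0 0) = 1 := by
        simpa [Matrix.mul_apply] using congrFun (congrFun hU' 0) 0
      have hv : V 0 0 * star (V 0 0) = 1 := by
        simpa [Matrix.mul_apply] using congrFun (congrFun hV' 0) 0
      rw [hPd, hQd, det_unique]
      simp only [Matrix.sub_apply, one_apply_eq, Matrix.mul_apply, Fin.sum_univ_one, diagonal_apply_eq,
        conjTranspose_apply, Fin.default_eq_zero]
      push_cast
      linear_combination (-(p 0 : ℂ) * q 0 * (V 0 0 * star (V 0 0))) * hu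
        + (-(p 0 : ℂ) * q 0) * hv
    have hr' : r = 1 - p 0 * q 0 := by exact_mod_cast hdet.symm.trans e1
    rw [Fin.sum_univ_one, ← hr']
    linarith
  · have hlogeq : ∀ k, Real.log (1 + p k / (1 - p k)) + Real.log (1 + q k / (1 - q k))
        - Real.log (1 + p k / (1 - p k) + q k / (1 - q k)) = -Real.log (1 - p k * q k) := by
      intro k
      have a := sub_pos.mpr (hp1 k)
      have b := sub_pos.mpr (hq1 k)
      have c := sub_pos.mpr (hpq k)
      rw [show 1 + p k / (1 - p k) = (1 - p k)⁻¹ by field_simp; ring,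
        show 1 + q k / (1 - q k) = (1 - q k)⁻¹ by field_simp; ring,
        show (1 - p k)⁻¹ + q k / (1 - q k) = (1 - p k * q k) / ((1 - p k) * (1 - q k)) by
          field_simp; ring,
        Real.log_inv, Real.log_inv, Real.log_div c.ne' (mul_pos a b).ne',
        Real.log_mul a.ne' b.ne']
      ring
    have hmeas : ∀ (x y : ℝ), Measurable fun z : ℝ × ℝ =>
        ker z.1 z.2 * ((if z.1 < x then 1 else 0) * (if z.2 < y then (1 : ℝ≥0∞) else 0)) :=
      fun x y => measurable_ker.mul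
        ((Measurable.ite (measurableSet_lt measurable_fst measurable_const)
            measurable_const measurable_const).mul
          (Measurable.ite (measurableSet_lt measurable_snd measurable_const)
            measurable_const measurable_const))
    have hin : ∀ f ∈ Set.Ioi (0 : ℝ),
        (∫⁻ g in Set.Ioi (0 : ℝ), ker f g * min (count2 G hD f t) (count2 H hE g t))
        = ∑ k, ∫⁻ g in Set.Ioi (0 : ℝ), ker f g * ((if f < p k / (1 - p k) then 1 else 0) *
            (if g < q k / (1 - q k) then 1 else 0)) := by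
      intro f hf'
      have e : ∀ g ∈ Set.Ioi (0 : ℝ), ker f g * min (count2 G hD f t) (count2 H hE g t)
          = ∑ k, ker f g * ((if f < p k / (1 - p k) then 1 else 0) *
            (if g < q k / (1 - q k) then 1 else 0)) := by
        intro g hg'
        have hmono : ∀ (p : Fin M → ℝ) (x : ℝ), Antitone p → (∀ k, p k < 1) →
            ∀ i j, i ≤ j → x < p j / (1 - p j) → x < p i / (1 - p i) := by
          intro p x hp hp1 i j hij hx
          refine lt_of_lt_of_le hx ?_
          rw [div_le_div_iff₀ (sub_pos.mpr (hp1 j)) (sub_pos.mpr (hp1 i))]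
          nlinarith [hp hij]
        rw [← mul_sum, count2_eq, count2_eq, ← hpc f hf', ← hqc g hg',
          min_card_eq (hmono p f hp hp1) (hmono q g hq hq1)]
      rw [setLIntegral_congr_fun measurableSet_Ioi e]
      refine lintegral_finsetSum _ fun k _ => ?_
      have h2 : Measurable fun g : ℝ => ker f g := measurable_ker.of_uncurry_left
      exact h2.mul (measurable_const.mul (measurable_ite_lt measurable_id' measurable_const))
    rw [setLIntegral_congr_fun measurableSet_Ioi hin]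
    have houter : ∀ k, Measurable fun f : ℝ => ∫⁻ g in Set.Ioi (0 : ℝ),
        ker f g * ((if f < p k / (1 - p k) then 1 else 0) *
          (if g < q k / (1 - q k) then (1 : ℝ≥0∞) else 0)) :=
      fun k => Measurable.lintegral_prod_right (hmeas _ _)
    rw [lintegral_finsetSum _ fun k _ => houter k,
      ENNReal.ofReal_sum_of_nonneg fun k _ => hnn k]
    refine sum_congr rfl fun k _ => ?_
    rw [ker_double_integral _ _ (hf k) (hg k), hlogeq]

end Vale.Agent.P358
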