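import Vale.Agent.P358.Ineq

namespace Vale.Agent.P358

open Matrix Finset MeasureTheory
open scoped ComplexOrder ENNReal

variable {ι κ : Type} [Fintype ι] [DecidableEq ι] [Fintype κ] [DecidableEq κ]

/-- Entropy of the normalised operator times its trace. -/
noncomputable def sbar (X : Matrix ι ι ℂ) : ℝ := ent X - Real.negMulLog (trace X).re

lemma ent_roots {X : Matrix ι ι ℂ} (hX : X.IsHermitian) :
    ent X = (X.charpoly.roots.map fun z => Real.negMulLog z.re).sum := by
  rw [ent, dif_pos hX, hX.roots_charpoly_eq_eigenvalues, Multiset.map_map]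
  simp [Function.comp_def]

lemma ent_submatrix (e : κ ≃ ι) (X : Matrix ι ι ℂ) : ent (X.submatrix e e) = ent X := by
  by_cases hX : X.IsHermitian
  · rw [ent_roots hX, ent_roots (hX.submatrix e)]
    congr 3
    exact charpoly_reindex e.symm X
  · have : ¬ (X.submatrix e e).IsHermitian := fun h => hX (by
      have := h.submatrix e.symm
      rwa [submatrix_submatrix, Equiv.self_comp_symm, submatrix_id_id] at this)
    rw [ent, ent, dif_neg hX, dif_neg this]

lemma trace_submatrix (e : κ ≃ ι) (X : Matrix ι ι ℂ) : trace (X.submatrix e e) = trace X :=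
  Equiv.sum_comp e fun i => X i i

lemma sbar_submatrix (e : κ ≃ ι) (X : Matrix ι ι ℂ) : sbar (X.submatrix e e) = sbar X := by
  rw [sbar, sbar, ent_submatrix, trace_submatrix]

lemma ent_unitary {W : Matrix ι ι ℂ} (hW : Wᴴ * W = 1) {X : Matrix ι ι ℂ} (hX : X.IsHermitian) :
    ent (W * X * Wᴴ) = ent X := by
  rw [ent_roots hX, ent_roots (isHermitian_mul_mul_conjTranspose W hX), charpoly_mul_comm,
    ← Matrix.mul_assoc, hW, Matrix.one_mul]

lemma ent_smul {x : ℝ} {X : Matrix ι ι ℂ} (hX : X.IsHermitian) :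
    ent ((x : ℂ) • X) = x * ent X + Real.negMulLog x * (trace X).re := by
  obtain ⟨U, hU, -, hd⟩ := eig_decomp hX
  have h1 : (x : ℂ) • X
      = U * diagonal (fun i => ((x * hX.eigenvalues i : ℝ) : ℂ)) * Uᴴ := by
    conv_lhs => rw [hd]
    rw [← Matrix.smul_mul, ← Matrix.mul_smul, ← diagonal_smul]
    simp [Pi.smul_def]
  rw [h1, ent_conj hU, ← sum_eig hX, mul_sum]
  rw [ent, dif_pos hX, mul_sum, ← sum_add_distrib]
  exact sum_congr rfl fun i _ => by rw [Real.negMulLog_mul]; ring

lemma sbar_smul {x : ℝ} {X : Matrix ι ι ℂ} (hX : X.IsHermitian) :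
    sbar ((x : ℂ) • X) = x * sbar X := by
  have h : (trace ((x : ℂ) • X)).re = x * (trace X).re := by simp
  rw [sbar, sbar, ent_smul hX, h, Real.negMulLog_mul]
  ring

lemma sbar_zero : sbar (0 : Matrix ι ι ℂ) = 0 := by simp [sbar, ent_zero]

lemma negMulLog_ge {p T : ℝ} (hp : 0 ≤ p) (hpT : p ≤ T) :
    -p * Real.log T ≤ Real.negMulLog p := by
  rcases hp.eq_or_lt with rfl | h
  · simp
  · rw [Real.negMulLog]
    have := Real.log_le_log h hpT
    nlinarith

lemma sbar_nonneg {X : Matrix ι ι ℂ} (hX : X.PosSemidef) : 0 ≤ sbar X := by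
  rw [sbar, ← sum_eig hX.1, ent, dif_pos hX.1, sub_nonneg]
  set T := ∑ i, hX.1.eigenvalues i with hT
  calc Real.negMulLog T = ∑ i, -hX.1.eigenvalues i * Real.log T := by
        rw [← sum_mul, sum_neg_distrib, ← hT, Real.negMulLog]
    _ ≤ _ := sum_le_sum fun i _ => negMulLog_ge (hX.eigenvalues_nonneg i)
        (single_le_sum (fun j _ => hX.eigenvalues_nonneg j) (mem_univ i))

lemma ent_one1 (x : ℝ) : ent (one1 x) = Real.negMulLog x := by
  have := ent_conj (U := (1 : Matrix (Fin 1) (Fin 1) ℂ)) (by simp) (fun _ => x)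
  simpa [one1] using this

lemma exists_gram {X : Matrix ι ι ℂ} (hX : X.PosSemidef) :
    ∃ G : Matrix ι (Fin (Fintype.card ι)) ℂ, X = G * Gᴴ := by
  obtain ⟨U, -, -, hd⟩ := eig_decomp hX.1
  set e := (Fintype.equivFin ι).symm
  refine ⟨(U * diagonal fun i => (Real.sqrt (hX.1.eigenvalues i) : ℂ)).submatrix id e, ?_⟩
  rw [conjTranspose_submatrix, submatrix_mul_equiv, submatrix_id_id, conjTranspose_mul,
    diagonal_conjTranspose, ← Matrix.mul_assoc, Matrix.mul_assoc U, diagonal_mul_diagonal]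
  conv_lhs => rw [hd]
  congr 2
  exact congrArg diagonal (funext fun i => by
    simp [← Complex.ofReal_mul, Real.mul_self_sqrt (hX.eigenvalues_nonneg i)])

lemma sbar_superadd {X Y : Matrix ι ι ℂ} (hX : X.PosSemidef) (hY : Y.PosSemidef) :
    sbar X + sbar Y ≤ sbar (X + Y) := by
  obtain ⟨G, rfl⟩ := exists_gram hX
  have ha : 0 ≤ gtr G := (Complex.nonneg_iff.mp (gram_psd G).trace_nonneg).1
  have hd : 0 ≤ (trace Y).re := (Complex.nonneg_iff.mp hY.trace_nonneg).1
  obtain ⟨-, h1⟩ := sub_integral G hY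
  obtain ⟨h0, h2⟩ := sub_integral (one1 (Real.sqrt (gtr G))) (one1_psd hd)
  have key : ent (G * Gᴴ) + ent Y - ent (G * Gᴴ + Y) ≤
      Real.negMulLog (gtr G) + Real.negMulLog (trace Y).re
        - Real.negMulLog (gtr G + (trace Y).re) := by
    have e2 : one1 (gtr G) + one1 (trace Y).re = one1 (gtr G + (trace Y).re) := by
      rw [one1, one1, one1, diagonal_add]; simp
    rw [one1_gram ha, e2, ent_one1, ent_one1, ent_one1] at h0 h2
    rw [← ENNReal.ofReal_le_ofReal_iff h0, ← h1, ← h2]
    refine lintegral_mono fun s => mul_le_mul' le_rfl (ENNReal.ofReal_le_ofReal ?_)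
    rw [alpha_one1 ha hd]
    have h3 := alpha_ge G hY s⁻¹
    have h4 : (trace (one1 (gtr G))).re = gtr G := by simp [one1]
    rw [h4]
    unfold gtr at h3 ⊢
    linarith
  simp only [sbar, trace_add, Complex.add_re]
  unfold gtr at key
  linarith

lemma sbar_sum_le {α : Type} (s : Finset α) (X : α → Matrix ι ι ℂ)
    (hX : ∀ a, (X a).PosSemidef) : ∑ a ∈ s, sbar (X a) ≤ sbar (∑ a ∈ s, X a) := by
  classical
  induction s using Finset.induction_on with
  | empty => simp [sbar_zero]
  | insert a s ha ih =>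
    rw [sum_insert ha, sum_insert ha]
    have := sbar_superadd (hX a) (posSemidef_sum s fun b _ => hX b)
    linarith

lemma ent_le_diag {X : Matrix ι ι ℂ} (hX : X.PosSemidef) :
    ent X ≤ ∑ i, Real.negMulLog (X i i).re := by
  obtain ⟨U, hU, hU', hd⟩ := eig_decomp hX.1
  set d := hX.1.eigenvalues
  have hrow : ∀ i, ∑ k, Complex.normSq (U i k) = 1 := fun i => by
    have := congrArg Complex.re (congrFun (congrFun hU' i) i)
    simpa [Matrix.mul_apply, Complex.normSq, Complex.mul_re, mul_comm] using this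
  have hcol : ∀ k, ∑ i, Complex.normSq (U i k) = 1 := fun k => by
    have := congrArg Complex.re (congrFun (congrFun hU k) k)
    simpa [Matrix.mul_apply, Complex.normSq, Complex.mul_re, mul_comm] using this
  have hdiag : ∀ i, (X i i).re = ∑ k, Complex.normSq (U i k) * d k := fun i => by
    conv_lhs => rw [hd]
    rw [Matrix.mul_apply, Complex.re_sum]
    refine sum_congr rfl fun k _ => ?_
    rw [mul_diagonal, conjTranspose_apply]
    simp [Complex.normSq, Complex.mul_re, Complex.mul_im]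
    ring
  calc ent X = ∑ k, (∑ i, Complex.normSq (U i k)) * Real.negMulLog (d k) := by
        rw [ent, dif_pos hX.1]
        simp [hcol, d]
    _ = ∑ i, ∑ k, Complex.normSq (U i k) * Real.negMulLog (d k) := by
        simp only [sum_mul]; rw [sum_comm]
    _ ≤ _ := sum_le_sum fun i _ => by
        rw [hdiag]
        have := Real.concaveOn_negMulLog.le_map_sum (t := univ)
          (w := fun k => Complex.normSq (U i k)) (p := d) (fun k _ => Complex.normSq_nonneg _)
          (hrow i) (fun k _ => hX.eigenvalues_nonneg k)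
        simpa using this

lemma marginal_bound {n : ℕ} (p : (Fin n → Fin 2) → ℝ) (hp : ∀ x, 0 ≤ p x)
    (hp1 : ∑ x, p x = 1) (m : Fin n → Fin 2 → ℝ)
    (hm : ∀ i b, m i b = ∑ x, if x i = b then p x else 0) :
    ∑ x, Real.negMulLog (p x) ≤ ∑ i, ∑ b, Real.negMulLog (m i b) := by
  have hm0 : ∀ i b, 0 ≤ m i b := fun i b => by
    rw [hm]; exact sum_nonneg fun x _ => by split_ifs <;> simp [hp]
  have hmle : ∀ i x, p x ≤ m i (x i) := fun i x => by
    rw [hm]
    refine le_trans (le_of_eq ?_) (single_le_sum (fun y _ => ?_) (mem_univ x))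
    · simp
    · split_ifs <;> simp [hp]
  have hm1 : ∀ i, ∑ b, m i b = 1 := fun i => by
    simp only [hm]; rw [sum_comm]; simpa using hp1
  have hpt : ∀ x, Real.negMulLog (p x)
      ≤ (∑ i, -p x * Real.log (m i (x i))) + ((∏ i, m i (x i)) - p x) := by
    intro x
    rcases (hp x).eq_or_lt with h | h
    · rw [← h]; simp [prod_nonneg fun i _ => hm0 i (x i)]
    · have hq : ∀ i, 0 < m i (x i) := fun i => lt_of_lt_of_le h (hmle i x)
      have hQ : 0 < ∏ i, m i (x i) := prod_pos fun i _ => hq i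
      have h1 := Real.log_le_sub_one_of_pos (div_pos hQ h)
      rw [Real.log_div hQ.ne' h.ne', Real.log_prod (fun i _ => (hq i).ne'),
        le_sub_iff_add_le, le_div_iff₀ h] at h1
      rw [← mul_sum, Real.negMulLog]
      nlinarith
  refine (sum_le_sum fun x _ => hpt x).trans (le_of_eq ?_)
  rw [sum_add_distrib, sum_sub_distrib, hp1]
  have h2 : ∑ x : Fin n → Fin 2, ∏ i, m i (x i) = 1 := by
    rw [← Fintype.prod_sum fun i b => m i b]
    simp [hm1]
  rw [h2, sub_self, add_zero, sum_comm]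
  refine sum_congr rfl fun i _ => ?_
  have h3 : ∀ b, Real.negMulLog (m i b) = ∑ x, if x i = b then -p x * Real.log (m i b) else 0 := by
    intro b
    rw [← sum_filter, ← sum_mul, sum_neg_distrib, sum_filter, ← hm, Real.negMulLog]
  simp only [h3]
  rw [sum_comm (γ := Fin 2)]
  simp

lemma ent_two {X : Matrix (Fin 2) (Fin 2) ℂ} (hX : X.IsHermitian) (htr : (trace X).re = 1) :
    ent X = Real.binEntropy ((1 + Real.sqrt (1 - 4 * (det X).re)) / 2) := by
  have h1 := sum_eig hX
  rw [htr, Fin.sum_univ_two] at h1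
  have h2 : (det X).re = hX.eigenvalues 0 * hX.eigenvalues 1 := by
    rw [hX.det_eq_prod_eigenvalues, Fin.prod_univ_two]
    simp
  set a := hX.eigenvalues 0 with ha
  set b := hX.eigenvalues 1 with hb
  have hb1 : b = 1 - a := by linarith
  have h3 : 1 - 4 * (det X).re = (2 * a - 1) ^ 2 := by rw [h2, hb1]; ring
  rw [ent, dif_pos hX, Fin.sum_univ_two, ← ha, ← hb, hb1,
    ← Real.binEntropy_eq_negMulLog_add_negMulLog_one_sub, h3, Real.sqrt_sq_eq_abs]
  rcases le_total 0 (2 * a - 1) with h | h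
  · rw [abs_of_nonneg h]; congr 1; ring
  · rw [abs_of_nonpos h, ← Real.binEntropy_one_sub]; congr 1; ring

end Vale.Agent.P358
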