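import Vale.Agent.P358.Lower

namespace Vale.Agent.P358

open Matrix Finset
open scoped ComplexOrder

lemma gad_hluw {γ ν : ℝ} (hγ : 0 ≤ γ) (hγ' : γ ≤ 1) (hν : 0 ≤ ν) (hν' : ν ≤ 1) :
    Real.sqrt (1 - γ) ^ 2 ≤ (1 - γ * ν) * (1 - γ + γ * ν) := by
  rw [Real.sq_sqrt (sub_nonneg.mpr hγ')]
  nlinarith [mul_nonneg (mul_nonneg hγ hγ) (mul_nonneg hν (sub_nonneg.mpr hν'))]

/-- The generalized amplitude-damping channel in the phase-covariant parametrisation. -/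
noncomputable def gadPar (γ ν : ℝ) (hγ : 0 ≤ γ) (hγ' : γ ≤ 1) (hν : 0 ≤ ν) (hν' : ν ≤ 1) :
    Par where
  u := 1 - γ * ν
  w := 1 - γ + γ * ν
  l := Real.sqrt (1 - γ)
  hu := by nlinarith
  hu' := by nlinarith
  hw := by nlinarith
  hw' := by nlinarith
  hl := Real.sqrt_nonneg _
  hluw := gad_hluw hγ hγ' hν hν'

lemma gadc_eq {γ ν : ℝ} (hγ : 0 ≤ γ) (hγ' : γ ≤ 1) (hν : 0 ≤ ν) (hν' : ν ≤ 1) :
    gadc γ ν = (gadPar γ ν hγ hγ' hν hν').chan := by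
  funext ρ
  ext i j
  fin_cases i <;> fin_cases j <;> simp [gadc, gadPar, Par.chan]
  exact Or.inl (by ring)

lemma scalar_eq {γ ν : ℝ} (hγ : 0 ≤ γ) (hγ' : γ ≤ 1) (hν : 0 ≤ ν) (hν' : ν ≤ 1) {k : ℕ}
    (q p : Fin k → ℝ) :
    (gadPar γ ν hγ hγ' hν hν').val q p =
      Real.binEntropy ((1 - γ) * (∑ a, q a * p a) + γ * ν)
        - ∑ a, q a * Real.binEntropy ((1 + Real.sqrt ((1 - 2 * ((1 - γ) * p a + γ * ν)) ^ 2
            + 4 * (1 - γ) * p a * (1 - p a))) / 2) := by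
  have ht : ∀ x, (gadPar γ ν hγ hγ' hν hν').tpop x = (1 - γ) * x + γ * ν := fun x => by
    simp [gadPar, Par.tpop]; ring
  simp only [Par.val, Par.gfun, ht]
  congr 1
  refine sum_congr rfl fun a _ => ?_
  simp only [gadPar, Real.sq_sqrt (sub_nonneg.mpr hγ')]
  simp only [mul_assoc]

lemma entropyBits_eq {ι : Type} [Fintype ι] [DecidableEq ι] (X : Matrix ι ι ℂ) :
    entropyBits X = ent X / Real.log 2 := rfl

/-- All tensor powers have Holevo supremum `n` times the scalar one. -/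
theorem gad_capacity {γ ν : ℝ} (hγ : 0 ≤ γ) (hγ' : γ ≤ 1) (hν : 0 ≤ ν) (hν' : ν ≤ 1) :
    ∃ C : ℝ, IsLUB (scalarValues γ ν) C ∧
      (∀ n : ℕ, IsLUB (holevoValues (gadc γ ν) n) ((n : ℝ) * C)) ∧
      IsLUB {r : ℝ | ∃ n : ℕ, 1 ≤ n ∧ ∃ x ∈ holevoValues (gadc γ ν) n, r = x / n} C := by
  set c := gadPar γ ν hγ hγ' hν hν' with hc
  have hout : ∀ n ρ, tensorPow (gadc γ ν) n ρ = c.out n ρ := fun n ρ => by
    rw [gadc_eq hγ hγ' hν hν']; rfl
  have hl2 : 0 < Real.log 2 := Real.log_pos one_lt_two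
  have hne : (scalarValues γ ν).Nonempty := by
    refine ⟨_, 1, fun _ => 1, fun _ => 0, fun _ => zero_le_one, by simp,
      fun _ => ⟨le_rfl, zero_le_one⟩, rfl⟩
  have hbdd : BddAbove (scalarValues γ ν) := by
    refine ⟨1, ?_⟩
    rintro r ⟨k, q, p, hq, hq1, hp, rfl⟩
    rw [← scalar_eq hγ hγ' hν hν', div_le_one hl2]
    exact c.val_le_log_two hq hp
  set C := sSup (scalarValues γ ν) with hC
  have hlub : IsLUB (scalarValues γ ν) C := isLUB_csSup hne hbdd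
  have hB : c.Bounds (C * Real.log 2) := by
    intro k q p hq hq1 hp
    rw [← div_le_iff₀ hl2]
    refine hlub.1 ⟨k, q, p, hq, hq1, hp, ?_⟩
    rw [hc, scalar_eq hγ hγ' hν hν']
  have hupper : ∀ n, ∀ r ∈ holevoValues (gadc γ ν) n, r ≤ (n : ℝ) * C := by
    rintro n r ⟨k, q, ρ, hq, hq1, hρ, rfl⟩
    simp only [hout, entropyBits_eq]
    rw [← mul_le_mul_iff_of_pos_right hl2]
    have h := c.upper_mixed hB n q ρ hq hq1 hρ
    simp only [sub_mul, sum_mul, mul_assoc, div_mul_cancel₀ _ hl2.ne']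
    linarith
  have hlower : ∀ n, ∀ r ∈ scalarValues γ ν, (n : ℝ) * r ∈ holevoValues (gadc γ ν) n := by
    rintro n r ⟨k, q, p, hq, hq1, hp, rfl⟩
    obtain ⟨K, Q, ρ, hQ, hQ1, hρ, heq⟩ := c.lower n q p hq hq1 hp
    refine ⟨K, Q, ρ, hQ, hQ1, hρ, ?_⟩
    simp only [hout, entropyBits_eq]
    rw [← scalar_eq hγ hγ' hν hν', ← hc, ← mul_div_assoc, ← heq, sub_div, sum_div]
    simp only [mul_div_assoc]
  have hall : ∀ n : ℕ, IsLUB (holevoValues (gadc γ ν) n) ((n : ℝ) * C) := by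
    intro n
    refine ⟨fun r hr => hupper n r hr, fun B hB' => ?_⟩
    rcases Nat.eq_zero_or_pos n with rfl | hn
    · obtain ⟨r, hr⟩ := hne
      simpa using hB' (hlower 0 r hr)
    · have hn' : (0 : ℝ) < n := Nat.cast_pos.mpr hn
      rw [← le_div_iff₀' hn']
      refine hlub.2 fun r hr => ?_
      rw [le_div_iff₀' hn']
      exact hB' (hlower n r hr)
  refine ⟨C, hlub, hall, ?_, ?_⟩
  · rintro r ⟨n, hn, x, hx, rfl⟩
    rw [div_le_iff₀' (Nat.cast_pos.mpr hn)]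
    exact (hall n).1 hx
  · intro B hB'
    refine hlub.2 fun r hr => hB' ⟨1, le_rfl, _, hlower 1 r hr, ?_⟩
    simp

end Vale.Agent.P358
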