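import Vale.Agent.P358.Core

namespace Vale.Agent.P358

open Matrix Finset MeasureTheory Filter Topology
open scoped ComplexOrder ENNReal

variable {ι : Type} [Fintype ι] [DecidableEq ι] {M : ℕ}

attribute [local irreducible] ker wt

/-- The monotone functional of the two positive-part traces. -/
noncomputable def J (a c : ℝ) (α β : ℝ → ℝ) : ℝ≥0∞ :=
  ∫⁻ f in Set.Ioi (0 : ℝ), ∫⁻ g in Set.Ioi (0 : ℝ),
    ker f g * ENNReal.ofReal (f⁻¹ * a + g⁻¹ * c - max (α f) (β g))

/-- The trace of `G Gᴴ`. -/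
def gtr (G : Matrix ι (Fin M) ℂ) : ℝ := (trace (G * Gᴴ)).re

/-- The defect which the main inequality bounds. -/
noncomputable def defect (G H : Matrix ι (Fin M) ℂ) (D E : Matrix ι ι ℂ) : ℝ :=
  ent (G * Gᴴ) + ent D + ent (H * Hᴴ) + ent E - ent (blockM G H D E)

lemma coupling_entropy (G H : Matrix ι (Fin M) ℂ) {D E : Matrix ι ι ℂ} (hD : D.PosSemidef)
    (hE : E.PosSemidef) :
    0 ≤ ent (G * Gᴴ + D) + ent (H * Hᴴ + E) - ent (blockM G H D E) ∧
    ∫⁻ t in Set.Ioi (0 : ℝ), ENNReal.ofReal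
        (ld (G * Gᴴ + D) t + ld (H * Hᴴ + E) t - ld (blockM G H D E) t)
      = ENNReal.ofReal (ent (G * Gᴴ + D) + ent (H * Hᴴ + E) - ent (blockM G H D E)) := by
  have hA := (gram_psd G).add hD
  have hC := (gram_psd H).add hE
  have hM := blockM_psd G H hD hE
  set c : (ι ⊕ ι) ⊕ (ι ⊕ ι) → ℝ := Sum.elim (fun _ => 1) (fun _ => -1) with hc
  set l : (ι ⊕ ι) ⊕ (ι ⊕ ι) → ℝ :=
    Sum.elim (Sum.elim hA.1.eigenvalues hC.1.eigenvalues) hM.1.eigenvalues with hl
  have hsum : ∀ f : ℝ → ℝ, ∑ i, c i * f (l i) = (∑ i, f (hA.1.eigenvalues i))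
      + (∑ i, f (hC.1.eigenvalues i)) - (∑ i, f (hM.1.eigenvalues i)) := by
    intro f
    simp [hc, hl, Fintype.sum_sum_type]
    ring
  have hh : ∀ t, ∑ i, c i * Real.log (t + l i)
      = ld (G * Gᴴ + D) t + ld (H * Hᴴ + E) t - ld (blockM G H D E) t := by
    intro t
    rw [hsum (fun x => Real.log (t + x)), ld, ld, ld, dif_pos hA.1, dif_pos hC.1, dif_pos hM.1]
  have htr : (trace (blockM G H D E)).re
      = (trace (G * Gᴴ + D)).re + (trace (H * Hᴴ + E)).re := by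
    rw [blockM, ← Complex.add_re]
    simp [Matrix.trace, Fintype.sum_sum_type]
  have hl0 : ∀ i, 0 ≤ l i := by
    rintro ((i | i) | i)
    · exact hA.eigenvalues_nonneg i
    · exact hC.eigenvalues_nonneg i
    · exact hM.eigenvalues_nonneg i
  have h1 := log_comb_integral c l hl0
    (by simp [hc, Fintype.sum_sum_type])
    (by
      rw [hsum (fun x => x), sum_eig, sum_eig, sum_eig, htr]
      ring)
    (fun t ht => by
      rw [hh]
      obtain ⟨p, q, h, -⟩ := coupling_data G H hD hE ht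
      exact h)
  have hval : ∑ i, c i * Real.negMulLog (l i)
      = ent (G * Gᴴ + D) + ent (H * Hᴴ + E) - ent (blockM G H D E) := by
    rw [hsum Real.negMulLog, ent, ent, ent, dif_pos hA.1, dif_pos hC.1, dif_pos hM.1]
  simp only [hval, hh] at h1
  exact ⟨h1.2, h1.1⟩

lemma count2_min_integral_le (G H : Matrix ι (Fin M) ℂ) {D E : Matrix ι ι ℂ} (hD : D.PosSemidef)
    (hE : E.PosSemidef) (f g : ℝ) :
    ∫⁻ t in Set.Ioi (0 : ℝ), min (count2 G hD f t) (count2 H hE g t)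
      ≤ ENNReal.ofReal (min (alpha G hD f⁻¹) (alpha H hE g⁻¹)) := by
  rw [ENNReal.ofReal_min, ← count2_integral, ← count2_integral]
  exact le_min (lintegral_mono fun t => min_le_left _ _) (lintegral_mono fun t => min_le_right _ _)

lemma count2_min_integral_unique [Unique ι] (G H : Matrix ι (Fin M) ℂ) {D E : Matrix ι ι ℂ}
    (hD : D.PosSemidef) (hE : E.PosSemidef) (f g : ℝ) :
    ∫⁻ t in Set.Ioi (0 : ℝ), min (count2 G hD f t) (count2 H hE g t)
      = ENNReal.ofReal (min (alpha G hD f⁻¹) (alpha H hE g⁻¹)) := by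
  refine le_antisymm (count2_min_integral_le G H hD hE f g) ?_
  have e : Fintype.card ι = 1 := Fintype.card_unique
  set k₀ : Fin (Fintype.card ι) := ⟨0, by omega⟩
  have hk : ∀ k : Fin (Fintype.card ι), k = k₀ := fun k =>
    Fin.ext (by have := k.2; simp [k₀]; omega)
  have hs : ∀ {α : Type} [AddCommMonoid α] (φ : Fin (Fintype.card ι) → α), ∑ k, φ k = φ k₀ :=
    fun φ => Fintype.sum_eq_single k₀ fun k hne => absurd (hk k) hne
  simp only [count2, alpha, hs]
  set x := lam G hD k₀ f⁻¹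
  set y := lam H hE k₀ g⁻¹
  have h : ∀ t : ℝ, min (if t < x then (1 : ℝ≥0∞) else 0) (if t < y then 1 else 0)
      = if t < min x y then 1 else 0 := by
    intro t
    by_cases h1 : t < x <;> by_cases h2 : t < y <;> simp [h1, h2]
  rw [lintegral_congr h, lintegral_Ioi_lt, ← max_min_distrib_right, ENNReal.ofReal_max]
  simp

lemma ker_left (φ : ℝ → ℝ≥0∞) :
    ∫⁻ f in Set.Ioi (0 : ℝ), ∫⁻ g in Set.Ioi (0 : ℝ), ker f g * φ f
      = ∫⁻ f in Set.Ioi (0 : ℝ), wt f * φ f := by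
  refine setLIntegral_congr_fun measurableSet_Ioi fun f hf => ?_
  have h : Measurable fun g => ker f g := measurable_ker.of_uncurry_left
  rw [lintegral_mul_const _ h, ker_integral f (le_of_lt hf)]

lemma ker_right (φ : ℝ → ℝ≥0∞) (hφ : Measurable φ) :
    ∫⁻ f in Set.Ioi (0 : ℝ), ∫⁻ g in Set.Ioi (0 : ℝ), ker f g * φ g
      = ∫⁻ g in Set.Ioi (0 : ℝ), wt g * φ g := by
  have hm : Measurable (Function.uncurry fun f g => ker f g * φ g) :=
    measurable_ker.mul (hφ.comp measurable_snd)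
  rw [lintegral_lintegral_swap hm.aemeasurable, ← ker_left φ]
  refine lintegral_congr fun g => lintegral_congr fun f => ?_
  simp only [ker, show 1 + f + g = 1 + g + f by ring]

lemma swap3 (P Q : ℝ → ℝ → ℝ≥0∞) (hP : Measurable (Function.uncurry P))
    (hQ : Measurable (Function.uncurry Q)) :
    ∫⁻ t in Set.Ioi (0 : ℝ), ∫⁻ f in Set.Ioi (0 : ℝ), ∫⁻ g in Set.Ioi (0 : ℝ),
        ker f g * min (P f t) (Q g t)
      = ∫⁻ f in Set.Ioi (0 : ℝ), ∫⁻ g in Set.Ioi (0 : ℝ),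
        ker f g * ∫⁻ t in Set.Ioi (0 : ℝ), min (P f t) (Q g t) := by
  have h1 : Measurable fun z : (ℝ × ℝ) × ℝ => ker z.1.2 z.2 :=
    measurable_ker.comp ((measurable_snd.comp measurable_fst).prodMk measurable_snd)
  have h2 : Measurable fun z : (ℝ × ℝ) × ℝ => P z.1.2 z.1.1 :=
    hP.comp ((measurable_snd.comp measurable_fst).prodMk (measurable_fst.comp measurable_fst))
  have h3 : Measurable fun z : (ℝ × ℝ) × ℝ => Q z.2 z.1.1 :=
    hQ.comp (measurable_snd.prodMk (measurable_fst.comp measurable_fst))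
  have hm3 : Measurable fun z : (ℝ × ℝ) × ℝ =>
      ker z.1.2 z.2 * min (P z.1.2 z.1.1) (Q z.2 z.1.1) := h1.mul (h2.min h3)
  have hm2 : Measurable (Function.uncurry fun (t f : ℝ) => ∫⁻ g in Set.Ioi (0 : ℝ),
      ker f g * min (P f t) (Q g t)) := hm3.lintegral_prod_right'
  rw [lintegral_lintegral_swap hm2.aemeasurable]
  refine lintegral_congr fun f => ?_
  have hm4 : Measurable (Function.uncurry fun (t g : ℝ) => ker f g * min (P f t) (Q g t)) :=
    hm3.comp ((measurable_fst.prodMk measurable_const).prodMk measurable_snd)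
  rw [lintegral_lintegral_swap hm4.aemeasurable]
  refine lintegral_congr fun g => ?_
  have hm5 : Measurable fun t => min (P f t) (Q g t) :=
    (hP.comp (measurable_const.prodMk measurable_id)).min
      (hQ.comp (measurable_const.prodMk measurable_id))
  exact lintegral_const_mul _ hm5

lemma J_split (a c : ℝ) (α β : ℝ → ℝ) (hα : Measurable α) (hβ : Measurable β)
    (hα0 : ∀ f, 0 < f → 0 ≤ α f ∧ α f ≤ f⁻¹ * a) (hβ0 : ∀ g, 0 < g → 0 ≤ β g ∧ β g ≤ g⁻¹ * c) :
    J a c α β = (∫⁻ f in Set.Ioi (0 : ℝ), wt f * ENNReal.ofReal (f⁻¹ * a - α f))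
      + (∫⁻ g in Set.Ioi (0 : ℝ), wt g * ENNReal.ofReal (g⁻¹ * c - β g))
      + (∫⁻ f in Set.Ioi (0 : ℝ), ∫⁻ g in Set.Ioi (0 : ℝ),
          ker f g * ENNReal.ofReal (min (α f) (β g))) := by
  have a1 : Measurable fun f => ENNReal.ofReal (f⁻¹ * a - α f) :=
    ENNReal.measurable_ofReal.comp ((measurable_inv.mul_const _).sub hα)
  have b1 : Measurable fun g => ENNReal.ofReal (g⁻¹ * c - β g) :=
    ENNReal.measurable_ofReal.comp ((measurable_inv.mul_const _).sub hβ)
  have m1 : Measurable fun z : ℝ × ℝ => ker z.1 z.2 * ENNReal.ofReal (z.1⁻¹ * a - α z.1) :=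
    measurable_ker.mul (a1.comp measurable_fst)
  have m2 : Measurable fun z : ℝ × ℝ => ker z.1 z.2 * ENNReal.ofReal (z.2⁻¹ * c - β z.2) :=
    measurable_ker.mul (b1.comp measurable_snd)
  rw [← ker_left, ← ker_right _ b1]
  have n1 : Measurable fun f => ∫⁻ g in Set.Ioi (0 : ℝ), ker f g * ENNReal.ofReal (f⁻¹ * a - α f) :=
    m1.lintegral_prod_right'
  have n2 : Measurable fun f => ∫⁻ g in Set.Ioi (0 : ℝ), ker f g * ENNReal.ofReal (g⁻¹ * c - β g) :=
    m2.lintegral_prod_right'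
  have n12 : Measurable fun f =>
      (∫⁻ g in Set.Ioi (0 : ℝ), ker f g * ENNReal.ofReal (f⁻¹ * a - α f))
      + ∫⁻ g in Set.Ioi (0 : ℝ), ker f g * ENNReal.ofReal (g⁻¹ * c - β g) := n1.add n2
  rw [← lintegral_add_left n1, ← lintegral_add_left n12, J]
  refine setLIntegral_congr_fun measurableSet_Ioi fun f hf => ?_
  have l1 : Measurable fun g => ker f g * ENNReal.ofReal (f⁻¹ * a - α f) :=
    m1.comp (measurable_const.prodMk measurable_id)
  have l2 : Measurable fun g => ker f g * ENNReal.ofReal (g⁻¹ * c - β g) :=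
    m2.comp (measurable_const.prodMk measurable_id)
  have l12 : Measurable fun g => ker f g * ENNReal.ofReal (f⁻¹ * a - α f)
      + ker f g * ENNReal.ofReal (g⁻¹ * c - β g) := l1.add l2
  rw [← lintegral_add_left l1, ← lintegral_add_left l12]
  refine setLIntegral_congr_fun measurableSet_Ioi fun g hg => ?_
  obtain ⟨x0, x1⟩ := hα0 f hf
  obtain ⟨y0, y1⟩ := hβ0 g hg
  simp only [← mul_add]
  rw [← ENNReal.ofReal_add (by linarith) (by linarith),
    ← ENNReal.ofReal_add (by linarith) (le_min x0 y0)]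
  congr 2
  linarith [min_add_max (α f) (β g)]

lemma coupling_le_min (G H : Matrix ι (Fin M) ℂ) {D E : Matrix ι ι ℂ} (hD : D.PosSemidef)
    (hE : E.PosSemidef) :
    ENNReal.ofReal (ent (G * Gᴴ + D) + ent (H * Hᴴ + E) - ent (blockM G H D E))
      ≤ ∫⁻ f in Set.Ioi (0 : ℝ), ∫⁻ g in Set.Ioi (0 : ℝ),
          ker f g * ENNReal.ofReal (min (alpha G hD f⁻¹) (alpha H hE g⁻¹)) := by
  rw [← (coupling_entropy G H hD hE).2]
  calc ∫⁻ t in Set.Ioi (0 : ℝ), ENNReal.ofReal
        (ld (G * Gᴴ + D) t + ld (H * Hᴴ + E) t - ld (blockM G H D E) t)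
      ≤ ∫⁻ t in Set.Ioi (0 : ℝ), ∫⁻ f in Set.Ioi (0 : ℝ), ∫⁻ g in Set.Ioi (0 : ℝ),
        ker f g * min (count2 G hD f t) (count2 H hE g t) := by
        refine setLIntegral_mono' measurableSet_Ioi fun t ht => ?_
        obtain ⟨p, q, -, h2, -, h4⟩ := coupling_data G H hD hE ht
        rw [← h4]
        exact ENNReal.ofReal_le_ofReal h2
    _ = ∫⁻ f in Set.Ioi (0 : ℝ), ∫⁻ g in Set.Ioi (0 : ℝ),
        ker f g * ∫⁻ t in Set.Ioi (0 : ℝ), min (count2 G hD f t) (count2 H hE g t) :=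
      swap3 (count2 G hD) (count2 H hE) (measurable_count2 G hD) (measurable_count2 H hE)
    _ ≤ _ := lintegral_mono fun f => lintegral_mono fun g =>
        mul_le_mul' le_rfl (count2_min_integral_le G H hD hE f g)

lemma coupling_eq_min [Unique ι] (G H : Matrix ι (Fin M) ℂ) (hM : M = 1) {D E : Matrix ι ι ℂ}
    (hD : D.PosSemidef) (hE : E.PosSemidef) :
    ENNReal.ofReal (ent (G * Gᴴ + D) + ent (H * Hᴴ + E) - ent (blockM G H D E))
      = ∫⁻ f in Set.Ioi (0 : ℝ), ∫⁻ g in Set.Ioi (0 : ℝ),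
          ker f g * ENNReal.ofReal (min (alpha G hD f⁻¹) (alpha H hE g⁻¹)) := by
  rw [← (coupling_entropy G H hD hE).2]
  calc ∫⁻ t in Set.Ioi (0 : ℝ), ENNReal.ofReal
        (ld (G * Gᴴ + D) t + ld (H * Hᴴ + E) t - ld (blockM G H D E) t)
      = ∫⁻ t in Set.Ioi (0 : ℝ), ∫⁻ f in Set.Ioi (0 : ℝ), ∫⁻ g in Set.Ioi (0 : ℝ),
        ker f g * min (count2 G hD f t) (count2 H hE g t) := by
        refine setLIntegral_congr_fun measurableSet_Ioi fun t ht => ?_
        obtain ⟨p, q, -, -, h3, h4⟩ := coupling_data G H hD hE ht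
        exact (congrArg ENNReal.ofReal (h3 hM)).trans h4
    _ = ∫⁻ f in Set.Ioi (0 : ℝ), ∫⁻ g in Set.Ioi (0 : ℝ),
        ker f g * ∫⁻ t in Set.Ioi (0 : ℝ), min (count2 G hD f t) (count2 H hE g t) :=
      swap3 (count2 G hD) (count2 H hE) (measurable_count2 G hD) (measurable_count2 H hE)
    _ = _ := lintegral_congr fun f => lintegral_congr fun g => by
        rw [count2_min_integral_unique G H hD hE f g]

lemma defect_split (G H : Matrix ι (Fin M) ℂ) {D E : Matrix ι ι ℂ} (hD : D.PosSemidef)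
    (hE : E.PosSemidef) :
    0 ≤ defect G H D E ∧ ENNReal.ofReal (defect G H D E) =
      ENNReal.ofReal (ent (G * Gᴴ) + ent D - ent (G * Gᴴ + D))
      + ENNReal.ofReal (ent (H * Hᴴ) + ent E - ent (H * Hᴴ + E))
      + ENNReal.ofReal (ent (G * Gᴴ + D) + ent (H * Hᴴ + E) - ent (blockM G H D E)) := by
  have sa0 := (sub_integral G hD).1
  have sc0 := (sub_integral H hE).1
  have sl0 := (coupling_entropy G H hD hE).1
  have hdef : defect G H D E = (ent (G * Gᴴ) + ent D - ent (G * Gᴴ + D))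
      + (ent (H * Hᴴ) + ent E - ent (H * Hᴴ + E))
      + (ent (G * Gᴴ + D) + ent (H * Hᴴ + E) - ent (blockM G H D E)) := by
    unfold defect; ring
  refine ⟨by rw [hdef]; linarith, ?_⟩
  rw [hdef, ENNReal.ofReal_add (add_nonneg sa0 sc0) sl0, ENNReal.ofReal_add sa0 sc0]

lemma J_eq (G H : Matrix ι (Fin M) ℂ) {D E : Matrix ι ι ℂ} (hD : D.PosSemidef)
    (hE : E.PosSemidef) :
    J (gtr G) (gtr H) (fun f => alpha G hD f⁻¹) (fun g => alpha H hE g⁻¹) =
      ENNReal.ofReal (ent (G * Gᴴ) + ent D - ent (G * Gᴴ + D))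
      + ENNReal.ofReal (ent (H * Hᴴ) + ent E - ent (H * Hᴴ + E))
      + ∫⁻ f in Set.Ioi (0 : ℝ), ∫⁻ g in Set.Ioi (0 : ℝ),
          ker f g * ENNReal.ofReal (min (alpha G hD f⁻¹) (alpha H hE g⁻¹)) := by
  rw [J_split (gtr G) (gtr H) _ _ (alpha_meas G hD) (alpha_meas H hE)
    (fun f hf => ⟨alpha_nonneg _ _ _, alpha_le G hD (inv_pos.mpr hf)⟩)
    (fun g hg => ⟨alpha_nonneg _ _ _, alpha_le H hE (inv_pos.mpr hg)⟩)]
  unfold gtr
  rw [(sub_integral G hD).2, (sub_integral H hE).2]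

/-- A scalar as a one-by-one matrix. -/
noncomputable def one1 (x : ℝ) : Matrix (Fin 1) (Fin 1) ℂ := diagonal fun _ => (x : ℂ)

lemma one1_psd {x : ℝ} (hx : 0 ≤ x) : (one1 x).PosSemidef :=
  PosSemidef.diagonal fun _ => Complex.zero_le_real.mpr hx

lemma one1_gram {x : ℝ} (hx : 0 ≤ x) : one1 (Real.sqrt x) * (one1 (Real.sqrt x))ᴴ = one1 x := by
  rw [one1, diagonal_conjTranspose, diagonal_mul_diagonal]
  refine congrArg diagonal (funext fun _ => ?_)
  simp [← Complex.ofReal_mul, Real.mul_self_sqrt hx]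

lemma alpha_one1 {a d : ℝ} (ha : 0 ≤ a) (hd : 0 ≤ d) (σ : ℝ) :
    alpha (one1 (Real.sqrt a)) (one1_psd hd) σ = max (σ * a - d) 0 := by
  haveI : Unique (Fin (Fintype.card (Fin 1))) := { default := 0, uniq := fun a => Subsingleton.elim (α := Fin 1) a 0 }
  have h := lam_sum (one1 (Real.sqrt a)) (one1_psd hd) σ
  rw [Fintype.sum_unique, one1_gram ha] at h
  rw [alpha, Fintype.sum_unique, h]
  simp [one1]

/-- The block entropy inequality. -/
theorem block_ineq (G H : Matrix ι (Fin M) ℂ) {D E : Matrix ι ι ℂ} (hD : D.PosSemidef)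
    (hE : E.PosSemidef) :
    defect G H D E ≤ defect (one1 (Real.sqrt (gtr G))) (one1 (Real.sqrt (gtr H)))
      (one1 (trace D).re) (one1 (trace E).re) := by
  have ha : 0 ≤ gtr G := (Complex.nonneg_iff.mp (gram_psd G).trace_nonneg).1
  have hc : 0 ≤ gtr H := (Complex.nonneg_iff.mp (gram_psd H).trace_nonneg).1
  have hd : 0 ≤ (trace D).re := (Complex.nonneg_iff.mp hD.trace_nonneg).1
  have he : 0 ≤ (trace E).re := (Complex.nonneg_iff.mp hE.trace_nonneg).1
  obtain ⟨-, h1⟩ := defect_split G H hD hE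
  obtain ⟨h0, h2⟩ := defect_split (one1 (Real.sqrt (gtr G))) (one1 (Real.sqrt (gtr H)))
    (one1_psd hd) (one1_psd he)
  rw [← ENNReal.ofReal_le_ofReal_iff h0, h1, h2,
    coupling_eq_min (one1 (Real.sqrt (gtr G))) (one1 (Real.sqrt (gtr H))) rfl (one1_psd hd)
      (one1_psd he), ← J_eq]
  refine le_trans (add_le_add le_rfl (coupling_le_min G H hD hE)) ?_
  rw [← J_eq]
  have hg : ∀ x : ℝ, 0 ≤ x → gtr (one1 (Real.sqrt x)) = x := fun x hx => by
    rw [gtr, one1_gram hx]; simp [one1]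
  rw [J, J, hg _ ha, hg _ hc]
  refine lintegral_mono fun f => lintegral_mono fun g =>
    mul_le_mul' le_rfl (ENNReal.ofReal_le_ofReal (sub_le_sub_left ?_ _))
  refine max_le_max ?_ ?_
  · rw [alpha_one1 ha hd]; exact alpha_ge G hD f⁻¹
  · rw [alpha_one1 hc he]; exact alpha_ge H hE g⁻¹

end Vale.Agent.P358
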