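import Vale.Agent.P358.Upper

namespace Vale.Agent.P358

open Matrix Finset
open scoped ComplexOrder

/-- Tensor product of one-qubit matrices. -/
def piMat {n : ℕ} (X : Fin n → Matrix (Fin 2) (Fin 2) ℂ) :
    Matrix (Fin n → Fin 2) (Fin n → Fin 2) ℂ :=
  Matrix.of fun x y => ∏ i, X i (x i) (y i)

variable {n : ℕ}

lemma piMat_mul (X Y : Fin n → Matrix (Fin 2) (Fin 2) ℂ) :
    piMat X * piMat Y = piMat fun i => X i * Y i := by
  ext x y
  simp only [piMat, Matrix.mul_apply, of_apply, Fintype.prod_sum, prod_mul_distrib]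

lemma piMat_conjTranspose (X : Fin n → Matrix (Fin 2) (Fin 2) ℂ) :
    (piMat X)ᴴ = piMat fun i => (X i)ᴴ := by
  ext x y
  simp [piMat, conjTranspose_apply]

lemma piMat_diagonal (d : Fin n → Fin 2 → ℂ) :
    (piMat fun i => diagonal (d i)) = diagonal fun x => ∏ i, d i (x i) := by
  ext x y
  simp only [piMat, of_apply]
  by_cases h : x = y
  · subst h; simp
  · obtain ⟨i, hi⟩ := Function.ne_iff.mp h
    rw [diagonal_apply_ne _ h]
    exact prod_eq_zero (mem_univ i) (diagonal_apply_ne _ hi)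

lemma trace_piMat (X : Fin n → Matrix (Fin 2) (Fin 2) ℂ) :
    trace (piMat X) = ∏ i, trace (X i) := by
  simp only [trace, diag_apply, piMat, of_apply, Fintype.prod_sum]

lemma negMulLog_prod : ∀ (n : ℕ) (d : Fin n → Fin 2 → ℝ), (∀ i, ∑ b, d i b = 1) →
    ∑ x : Fin n → Fin 2, Real.negMulLog (∏ i, d i (x i)) = ∑ i, ∑ b, Real.negMulLog (d i b)
  | 0, d, _ => by simp
  | n + 1, d, h => by
    have h2 : ∑ y : Fin n → Fin 2, ∏ i, d i.succ (y i) = 1 := by
      rw [← Fintype.prod_sum fun (i : Fin n) b => d i.succ b]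
      simp [h]
    rw [← (Fin.consEquiv fun _ : Fin (n + 1) => Fin 2).sum_comp, Fintype.sum_prod_type,
      Fin.sum_univ_succ (f := fun i => ∑ b, Real.negMulLog (d i b)),
      ← negMulLog_prod n (fun i => d i.succ) (fun i => h i.succ)]
    simp only [Fin.consEquiv, Equiv.coe_fn_mk, Fin.prod_univ_succ, Fin.cons_zero, Fin.cons_succ,
      Real.negMulLog_mul, sum_add_distrib, ← sum_mul, ← mul_sum, h2, one_mul]
    rw [h 0, one_mul]

lemma ent_piMat (X : Fin n → Matrix (Fin 2) (Fin 2) ℂ) (hX : ∀ i, (X i).IsHermitian)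
    (htr : ∀ i, (trace (X i)).re = 1) : ent (piMat X) = ∑ i, ent (X i) := by
  choose U hU hU' hd using fun i => eig_decomp (hX i)
  set d : Fin n → Fin 2 → ℝ := fun i => (hX i).eigenvalues with hdd
  have hd1 : ∀ i, ∑ b, d i b = 1 := fun i => by rw [hdd]; simpa [sum_eig] using htr i
  have hUU : (piMat U)ᴴ * piMat U = 1 := by
    have h1 : (fun i => (U i)ᴴ * U i) = fun _ => diagonal fun _ => (1 : ℂ) := by
      funext i; rw [hU, diagonal_one]
    rw [piMat_conjTranspose, piMat_mul, h1, piMat_diagonal]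
    simp
  have hXd : piMat X
      = piMat U * diagonal (fun x => ((∏ i, d i (x i) : ℝ) : ℂ)) * (piMat U)ᴴ := by
    have : diagonal (fun x => ((∏ i, d i (x i) : ℝ) : ℂ))
        = piMat fun i => diagonal fun b => (d i b : ℂ) := by
      rw [piMat_diagonal]; simp
    rw [this, piMat_conjTranspose, piMat_mul, piMat_mul]
    exact congrArg piMat (funext hd)
  rw [hXd, ent_conj hUU, negMulLog_prod n d hd1]
  exact sum_congr rfl fun i _ => by rw [ent, dif_pos (hX i)]

namespace Par

variable (c : Par)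

lemma chan_expand (ρ : Matrix (Fin 2) (Fin 2) ℂ) (b b' : Fin 2) :
    c.chan ρ b b' = ∑ z, ∑ z', c.chan (Matrix.single z z' 1) b b' * ρ z z' := by
  fin_cases b <;> fin_cases b' <;> simp [chan, Fin.sum_univ_two]

lemma out_piMat (X : Fin n → Matrix (Fin 2) (Fin 2) ℂ) :
    c.out n (piMat X) = piMat fun i => c.chan (X i) := by
  ext x y
  simp only [out, tensorPow, piMat, of_apply]
  simp only [c.chan_expand (X _), Fintype.prod_sum, prod_mul_distrib]

lemma lower (n : ℕ) {k : ℕ} (q p : Fin k → ℝ) (hq : ∀ a, 0 ≤ q a) (hq1 : ∑ a, q a = 1)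
    (hp : ∀ a, 0 ≤ p a ∧ p a ≤ 1) :
    ∃ (K : ℕ) (Q : Fin K → ℝ) (ρ : Fin K → Matrix (Fin n → Fin 2) (Fin n → Fin 2) ℂ),
      (∀ a, 0 ≤ Q a) ∧ ∑ a, Q a = 1 ∧ (∀ a, (ρ a).PosSemidef ∧ (ρ a).trace = 1) ∧
      ent (∑ a, (Q a : ℂ) • c.out n (ρ a)) - ∑ a, Q a * ent (c.out n (ρ a)) = n * c.val q p := by
  set s : Fin 2 → ℝ := ![1, -1] with hs
  set r : Fin k × Fin 2 → ℝ :=
    fun j => s j.2 * (Real.sqrt (1 - p j.1) * Real.sqrt (p j.1)) with hr
  set σ : Fin k × Fin 2 → Matrix (Fin 2) (Fin 2) ℂ := fun j => qmat (p j.1) (r j) with hσ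
  set w : Fin k × Fin 2 → ℝ := fun j => q j.1 / 2 with hw
  have hs2 : ∀ z, s z ^ 2 = 1 := fun z => by fin_cases z <;> simp [hs]
  have hr2 : ∀ j, r j ^ 2 = p j.1 * (1 - p j.1) := fun j => by
    simp only [hr, mul_pow, hs2, one_mul]
    rw [Real.sq_sqrt (by linarith [(hp j.1).2]), Real.sq_sqrt (hp j.1).1]
    ring
  have hσp : ∀ j, (σ j).PosSemidef := fun j => by
    set v : Fin 2 → ℂ := ![(Real.sqrt (1 - p j.1) : ℂ), ((s j.2 * Real.sqrt (p j.1) : ℝ) : ℂ)]
      with hv
    have e : σ j = vecMulVec v (star v) := by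
      have e1 := Real.mul_self_sqrt (sub_nonneg.mpr (hp j.1).2)
      have e2 := Real.mul_self_sqrt (hp j.1).1
      have e3 : s j.2 * Real.sqrt (p j.1) * (s j.2 * Real.sqrt (p j.1)) = p j.1 := by
        linear_combination (Real.sqrt (p j.1) * Real.sqrt (p j.1)) * hs2 j.2 + e2
      ext a b
      fin_cases a <;> fin_cases b <;>
        simp only [hσ, qmat, hv, hr, vecMulVec_apply, Pi.star_apply, of_apply, cons_val',
          cons_val_zero, cons_val_one, Fin.zero_eta, Fin.mk_one, cons_val_fin_one, RCLike.star_def,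
          Complex.conj_ofReal, ← Complex.ofReal_mul, Complex.ofReal_inj]
      · exact e1.symm
      · ring
      · ring
      · exact e3.symm
    rw [e]; exact posSemidef_vecMulVec_self_star v
  have hσt : ∀ j, trace (σ j) = 1 := fun j => by
    simp [hσ, qmat, Matrix.trace, Fin.sum_univ_two]
  have hw1 : ∑ j, w j = 1 := by
    rw [Fintype.sum_prod_type, ← hq1]
    exact sum_congr rfl fun a _ => by simp [hw]; ring
  have hct : ∀ j, (trace (c.chan (σ j))).re = 1 := fun j => by
    simp [hσ, chan, qmat, Matrix.trace, Fin.sum_univ_two]; ring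
  have hσh : ∀ j, (σ j).IsHermitian := fun j => (hσp j).1
  set e := Fintype.equivFin (Fin n → Fin k × Fin 2)
  refine ⟨_, fun a => ∏ i, w (e.symm a i), fun a => piMat fun i => σ (e.symm a i),
    fun a => prod_nonneg fun i _ => div_nonneg (hq _) two_pos.le, ?_, fun a => ⟨?_, ?_⟩, ?_⟩
  · rw [Equiv.sum_comp e.symm fun f => ∏ i, w (f i), ← Fintype.prod_sum fun (_ : Fin n) j => w j]
    simp [hw1]
  · choose G hG using fun j => exists_gram (hσp j)
    set H : Fin n → Matrix (Fin 2) (Fin 2) ℂ :=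
      fun i => (G (e.symm a i)).submatrix id (finCongr (Fintype.card_fin 2).symm)
    have : piMat (fun i => σ (e.symm a i)) = piMat H * (piMat H)ᴴ := by
      rw [piMat_conjTranspose, piMat_mul]
      refine congrArg piMat (funext fun i => ?_)
      rw [conjTranspose_submatrix, ← submatrix_mul _ _ _ _ _ (finCongr (Fintype.card_fin 2).symm).bijective, ← hG,
        submatrix_id_id]
    simp only []
    rw [this]; exact posSemidef_self_mul_conjTranspose _
  · rw [trace_piMat]; simp [hσt]
  · rw [Equiv.sum_comp e.symm fun f => ((∏ i, w (f i) : ℝ) : ℂ) • c.out n (piMat fun i => σ (f i)),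
      Equiv.sum_comp e.symm fun f => (∏ i, w (f i)) * ent (c.out n (piMat fun i => σ (f i)))]
    set avg := ∑ j, (w j : ℂ) • c.chan (σ j) with havg
    set t := c.tpop (∑ a, q a * p a) with ht
    have hP : ∑ f : Fin n → Fin k × Fin 2, ((∏ i, w (f i) : ℝ) : ℂ) •
        c.out n (piMat fun i => σ (f i)) = piMat fun _ : Fin n => avg := by
      simp only [out_piMat]
      ext x y
      simp only [Matrix.sum_apply, Matrix.smul_apply, piMat, of_apply, smul_eq_mul,
        havg, Fintype.prod_sum, Complex.ofReal_prod, ← prod_mul_distrib]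
    have havgd : avg = diagonal fun b => ((![1 - t, t] b : ℝ) : ℂ) := by
      have hP1 : ∑ a, q a * (1 - p a) = 1 - ∑ a, q a * p a := by
        simp [mul_sub, sum_sub_distrib, hq1]
      ext x y
      rw [havg, Matrix.sum_apply, Fintype.sum_prod_type]
      simp only [hσ, hw, hr, Fin.sum_univ_two, hs, Matrix.smul_apply, smul_eq_mul]
      fin_cases x <;> fin_cases y <;> simp [chan, qmat]
      · calc ∑ a, _ = ∑ a, ((c.u * (q a * (1 - p a)) + (1 - c.w) * (q a * p a) : ℝ) : ℂ) :=
              sum_congr rfl fun a _ => by push_cast; ring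
          _ = _ := by
            rw [← Complex.ofReal_sum, sum_add_distrib, ← mul_sum, ← mul_sum, hP1, ht, tpop]
            push_cast; ring
      · calc ∑ a, _ = ∑ a, (((1 - c.u) * (q a * (1 - p a)) + c.w * (q a * p a) : ℝ) : ℂ) :=
              sum_congr rfl fun a _ => by push_cast; ring
          _ = _ := by
            rw [← Complex.ofReal_sum, sum_add_distrib, ← mul_sum, ← mul_sum, hP1, ht, tpop]
    have hent : ent avg = Real.binEntropy t := by
      rw [havgd]
      have := ent_conj (U := (1 : Matrix (Fin 2) (Fin 2) ℂ)) (by simp) (![1 - t, t])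
      simp only [conjTranspose_one, Matrix.one_mul, Matrix.mul_one] at this
      rw [this, Real.binEntropy_eq_negMulLog_add_negMulLog_one_sub, Fin.sum_univ_two]
      simp [add_comm]
    have havgh : avg.IsHermitian := by
      rw [havgd]; exact isHermitian_diagonal_of_self_adjoint _ (by funext b; simp)
    have havgt : (trace avg).re = 1 := by
      rw [havgd]; simp [Fin.sum_univ_two]
    have hlin : ∀ i₀ : Fin n, ∑ f : Fin n → Fin k × Fin 2,
        (∏ i, w (f i)) * ent (c.chan (σ (f i₀))) = ∑ a, q a * c.gfun (p a) := by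
      intro i₀
      have h2 : ∀ f : Fin n → Fin k × Fin 2, (∏ i, w (f i)) * ent (c.chan (σ (f i₀)))
          = ∏ i, w (f i) * (if i = i₀ then ent (c.chan (σ (f i))) else 1) := by
        intro f; rw [prod_mul_distrib, prod_ite_eq']; simp
      simp only [h2]
      rw [← Fintype.prod_sum fun i j => w j * (if i = i₀ then ent (c.chan (σ j)) else 1),
        prod_eq_single i₀ (fun i _ hne => by simp [hne, hw1]) (by simp)]
      simp only [if_true, Fintype.sum_prod_type, hw, hσ]
      refine sum_congr rfl fun a _ => ?_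
      rw [Fin.sum_univ_two, c.ent_chan_qmat _ _ (hr2 (a, 0)), c.ent_chan_qmat _ _ (hr2 (a, 1))]
      ring
    rw [hP, ent_piMat _ (fun _ => havgh) (fun _ => havgt), val]
    simp only [hent, out_piMat]
    have h3 : ∀ f : Fin n → Fin k × Fin 2, ent (piMat fun i => c.chan (σ (f i)))
        = ∑ i, ent (c.chan (σ (f i))) :=
      fun f => ent_piMat _ (fun i => c.chan_herm (hσh _)) (fun i => hct _)
    simp only [h3, mul_sum]
    rw [sum_comm]
    simp only [hlin, ← ht, sum_const, card_univ, Fintype.card_fin, nsmul_eq_mul]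
    ring

end Par

end Vale.Agent.P358
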