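import Vale.Agent.P358.Analytic

namespace Vale.Agent.P358

open Matrix Finset MeasureTheory Filter Topology
open scoped ComplexOrder ENNReal

variable {ι : Type} [Fintype ι] [DecidableEq ι] {M : ℕ}

/-- Sum of `log (t + eigenvalue)`. -/
noncomputable def ld (X : Matrix ι ι ℂ) (t : ℝ) : ℝ :=
  if h : X.IsHermitian then ∑ i, Real.log (t + h.eigenvalues i) else 0

omit [Fintype ι] [DecidableEq ι] in
lemma pen_herm (G : Matrix ι (Fin M) ℂ) {D : Matrix ι ι ℂ} (hD : D.PosSemidef) (σ : ℝ) :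
    ((σ : ℂ) • (G * Gᴴ) - D).IsHermitian :=
  ((isHermitian_mul_conjTranspose_self G).smul (by simp [IsSelfAdjoint])).sub hD.1

lemma det_add_scalar {X : Matrix ι ι ℂ} (hX : X.PosSemidef) {t : ℝ} (ht : 0 < t) :
    det ((t : ℂ) • 1 + X) = (Real.exp (ld X t) : ℂ) := by
  obtain ⟨U, hU, hU', hd⟩ := eig_decomp hX.1
  have he : (t : ℂ) • 1 + X = U * ((t : ℂ) • 1 + diagonal fun i => (hX.1.eigenvalues i : ℂ)) * Uᴴ := by
    conv_lhs => rw [hd]
    simp [Matrix.mul_add, Matrix.add_mul, hU']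
  have hpos : ∀ i, 0 < t + hX.1.eigenvalues i := fun i =>
    add_pos_of_pos_of_nonneg ht (hX.eigenvalues_nonneg i)
  rw [he, det_mul_right_comm, hU', Matrix.one_mul]
  have : (t : ℂ) • (1 : Matrix ι ι ℂ) + diagonal (fun i => (hX.1.eigenvalues i : ℂ))
      = diagonal fun i => ((t + hX.1.eigenvalues i : ℝ) : ℂ) := by
    rw [← diagonal_one, ← diagonal_smul, diagonal_add]
    simp
  rw [this, det_diagonal, ld, dif_pos hX.1, Real.exp_sum, Complex.ofReal_prod]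
  exact prod_congr rfl fun i _ => by rw [Real.exp_log (hpos i)]

lemma ld_zero (t : ℝ) : ld (0 : Matrix ι ι ℂ) t = Fintype.card ι * Real.log t := by
  rw [ld, dif_pos isHermitian_zero, isHermitian_zero.eigenvalues_eq_zero_iff.mpr rfl]
  simp

lemma ent_zero : ent (0 : Matrix ι ι ℂ) = 0 := by
  rw [ent, dif_pos isHermitian_zero, isHermitian_zero.eigenvalues_eq_zero_iff.mpr rfl]
  simp

lemma sum_eig {X : Matrix ι ι ℂ} (hX : X.IsHermitian) :
    ∑ i, hX.eigenvalues i = (trace X).re := by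
  rw [hX.trace_eq_sum_eigenvalues]
  simp

omit [DecidableEq ι] in
lemma nsq_sub_smul (a b : ι → ℂ) (c : ℝ) :
    nsq (a - (c : ℂ) • b) = nsq a - 2 * c * (star b ⬝ᵥ a).re + c ^ 2 * nsq b := by
  simp only [nsq, dotProduct, Complex.re_sum, mul_sum, ← sum_sub_distrib, ← sum_add_distrib]
  refine sum_congr rfl fun i _ => ?_
  simp [Complex.normSq, Complex.mul_re, Complex.mul_im]
  ring

/-- The spectral data of `Gᴴ (t + G Gᴴ + D)⁻¹ G`. -/
lemma spec_data (G : Matrix ι (Fin M) ℂ) {D : Matrix ι ι ℂ} (hD : D.PosSemidef) {t : ℝ}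
    (ht : 0 < t) :
    ∃ (U : Matrix (Fin M) (Fin M) ℂ) (p : Fin M → ℝ),
      Uᴴ * U = 1 ∧ U * Uᴴ = 1 ∧ Antitone p ∧ (∀ k, 0 ≤ p k) ∧ (∀ k, p k < 1) ∧
      Gᴴ * ((t : ℂ) • 1 + (G * Gᴴ + D))⁻¹ * G = U * diagonal (fun k => (p k : ℂ)) * Uᴴ ∧
      ∑ k, -Real.log (1 - p k) = ld (G * Gᴴ + D) t - ld D t ∧
      ∀ s : ℝ, 0 < s → (univ.filter fun k => s < p k / (1 - p k)).card
        = cnt (pen_herm G hD s⁻¹) t := by
  set A := G * Gᴴ with hA
  set W := (t : ℂ) • (1 : Matrix ι ι ℂ) + (A + D) with hW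
  have hA0 : A.PosSemidef := posSemidef_self_mul_conjTranspose G
  have hdetW := det_add_scalar (hA0.add hD) ht
  rw [← hW] at hdetW
  have hdet0 : IsUnit W.det := by
    rw [hdetW]; exact isUnit_iff_ne_zero.mpr (by exact_mod_cast (Real.exp_pos _).ne')
  have hWH : W.IsHermitian :=
    (isHermitian_one.smul (by simp [IsSelfAdjoint])).add (hA0.add hD).1
  have hqW : ∀ y, qf W y = t * nsq y + nsq (Gᴴ *ᵥ y) + qf D y := by
    intro y
    rw [hW, qf_add, qf_add, qf_smul, qf_one, hA, qf_gram]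
    ring
  have hsolve : ∀ b, W *ᵥ (W⁻¹ *ᵥ b) = b := by
    intro b
    rw [mulVec_mulVec, mul_nonsing_inv _ hdet0, one_mulVec]
  set P := Gᴴ * W⁻¹ * G with hP
  have hPH : P.IsHermitian := isHermitian_conjTranspose_mul_mul G hWH.inv
  have hPv : ∀ v, P *ᵥ v = Gᴴ *ᵥ (W⁻¹ *ᵥ (G *ᵥ v)) := by
    intro v; simp only [hP, mulVec_mulVec, Matrix.mul_assoc]
  have hr : ∀ v, qf P v = qf W (W⁻¹ *ᵥ (G *ᵥ v)) := by
    intro v
    set y := W⁻¹ *ᵥ (G *ᵥ v) with hy
    rw [qf, qf, hPv, ← hy, hy, hsolve, ← hy]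
    have h1 : star v ⬝ᵥ (Gᴴ *ᵥ y) = star (G *ᵥ v) ⬝ᵥ y := (star_dot_mulVec G v y).symm
    rw [h1, star_dotProduct]
    exact Complex.conj_re _
  have hkey : ∀ v, qf P v ≤ 2 * qf P v - nsq v → nsq v = 0 := by
    intro v hv
    have h1 := hr v
    have h2 := hqW (W⁻¹ *ᵥ (G *ᵥ v))
    rw [← hPv, ← h1] at h2
    have h3 : 0 ≤ nsq (P *ᵥ v - ((1 : ℝ) : ℂ) • v) := nsq_nonneg _
    rw [nsq_sub_smul] at h3
    have h4 : qf P v = (star v ⬝ᵥ (P *ᵥ v)).re := rfl
    rw [← h4] at h3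
    have h5 := qf_nonneg hD (W⁻¹ *ᵥ (G *ᵥ v))
    have h6 : 0 ≤ t * nsq (W⁻¹ *ᵥ (G *ᵥ v)) := mul_nonneg ht.le (nsq_nonneg _)
    have h7 : t * nsq (W⁻¹ *ᵥ (G *ᵥ v)) = 0 := by linarith
    have hy0 : W⁻¹ *ᵥ (G *ᵥ v) = 0 := by
      by_contra hne
      exact (mul_pos ht (nsq_pos hne)).ne' h7
    have h8 : qf P v = 0 := by rw [hr, hy0]; simp [qf]
    linarith [nsq_nonneg v]
  obtain ⟨U, p, τ, hU, hU', hp, hpe, hPd⟩ := sorted_decomp hPH
  have hp0 : ∀ k, 0 ≤ p k := by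
    intro k
    have hWps : 0 ≤ qf W (W⁻¹ *ᵥ (G *ᵥ (U *ᵥ Pi.single k 1))) := by
      rw [hqW]
      have := qf_nonneg hD (W⁻¹ *ᵥ (G *ᵥ (U *ᵥ Pi.single k 1)))
      have := nsq_nonneg (W⁻¹ *ᵥ (G *ᵥ (U *ᵥ Pi.single k 1)))
      have := nsq_nonneg (Gᴴ *ᵥ (W⁻¹ *ᵥ (G *ᵥ (U *ᵥ Pi.single k 1))))
      nlinarith
    rw [← hr, hPd, qf_diag, unitary_mulVec_mulVec hU] at hWps
    simpa [Pi.single_apply, apply_ite Complex.normSq] using hWps
  have hp1 : ∀ k, p k < 1 := by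
    intro k
    by_contra hk
    push Not at hk
    set v := U *ᵥ Pi.single k (1 : ℂ) with hv
    have h1 : qf P v = p k := by
      rw [hPd, hv, qf_diag, unitary_mulVec_mulVec hU]
      simp [Pi.single_apply, apply_ite Complex.normSq]
    have h2 : nsq v = 1 := by
      rw [hv, nsq_unitary hU]
      simp [nsq, Pi.single_apply, apply_ite Complex.normSq]
    have := hkey v (by linarith)
    linarith
  refine ⟨U, p, hU, hU', hp, hp0, hp1, hPd, ?_, ?_⟩
  · have hdet : det (1 - P) * det W = det ((t : ℂ) • 1 + D) := by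
      rw [hP, Matrix.mul_assoc, det_one_sub_mul_comm, ← det_mul, Matrix.sub_mul, Matrix.one_mul,
        Matrix.mul_assoc W⁻¹ G Gᴴ, ← hA]
      have : W - W⁻¹ * A * W = W⁻¹ * (W - A) * W := by
        rw [Matrix.mul_sub, Matrix.sub_mul, nonsing_inv_mul _ hdet0, Matrix.one_mul]
      rw [this, det_conj' (W.isUnit_iff_isUnit_det.mpr hdet0)]
      congr 1
      rw [hW]; abel
    have h1 : det (1 - P) = ((∏ k, (1 - p k) : ℝ) : ℂ) := by
      rw [hPd, det_one_sub_mul_comm, ← Matrix.mul_assoc, hU, Matrix.one_mul, ← diagonal_one,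
        diagonal_sub, det_diagonal]
      simp
    rw [h1, hdetW, det_add_scalar hD ht] at hdet
    have h2 : (∏ k, (1 - p k)) * Real.exp (ld (A + D) t) = Real.exp (ld D t) := by
      exact_mod_cast hdet
    have h3 := congrArg Real.log h2
    rw [Real.log_mul (prod_pos fun k _ => sub_pos.mpr (hp1 k)).ne' (Real.exp_pos _).ne',
      Real.log_exp, Real.log_exp, Real.log_prod (fun k _ => (sub_pos.mpr (hp1 k)).ne')] at h3
    rw [sum_neg_distrib]
    linarith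
  · intro s hs
    set u := s / (1 + s) with hu
    have hu0 : 0 < u := by positivity
    have hu1 : u < 1 := by rw [hu, div_lt_one (by linarith)]; linarith
    have hcount : (univ.filter fun k => s < p k / (1 - p k)).card = cnt hPH u := by
      refine card_equiv τ fun k => ?_
      simp only [mem_filter, mem_univ, true_and]
      rw [← hpe k, lt_div_iff₀ (sub_pos.mpr (hp1 k)), hu, div_lt_iff₀ (by linarith)]
      constructor <;> intro h <;> nlinarith
    rw [hcount]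
    have hX : ∀ y, (qf ((s⁻¹ : ℝ) • A - D) y - t * nsq y) * u
        = nsq (Gᴴ *ᵥ y) - u * qf W y := by
      intro y
      have he : ((s⁻¹ : ℝ) • A - D) = ((s⁻¹ : ℝ) : ℂ) • A - D := by
        ext a b; simp
      rw [he, qf_sub, qf_smul, hA, qf_gram, hqW, hu]
      field_simp
      ring
    have hXe : qf ((((s⁻¹ : ℝ)) : ℂ) • (G * Gᴴ) - D) = qf ((s⁻¹ : ℝ) • A - D) := by
      congr 1
    refine le_antisymm (cnt_le_of_form hPH _ u t (Matrix.toLin' (W⁻¹ * G)) fun v hv => ?_)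
      (cnt_le_of_form _ hPH t u (Matrix.toLin' Gᴴ) fun y hy => ?_)
    · rw [Matrix.toLin'_apply, ← mulVec_mulVec, hXe]
      have h3 : 0 ≤ nsq (P *ᵥ v - ((u : ℝ) : ℂ) • v) := nsq_nonneg _
      rw [nsq_sub_smul] at h3
      have h5 := hX (W⁻¹ *ᵥ (G *ᵥ v))
      rw [← hPv, ← hr] at h5
      have h4 : qf P v = (star v ⬝ᵥ (P *ᵥ v)).re := rfl
      rw [← h4] at h3
      have h8 : 0 < (qf ((s⁻¹ : ℝ) • A - D) (W⁻¹ *ᵥ (G *ᵥ v))
          - t * nsq (W⁻¹ *ᵥ (G *ᵥ v))) * u := by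
        rw [h5]
        nlinarith
      linarith [(pos_iff_pos_of_mul_pos h8).mpr hu0]
    · rw [Matrix.toLin'_apply]
      rw [hXe] at hy
      set v := Gᴴ *ᵥ y with hv
      have h5 := hX y
      rw [← hv] at h5
      have h8 : 0 < (qf ((s⁻¹ : ℝ) • A - D) y - t * nsq y) * u := mul_pos (by linarith) hu0
      rw [h5] at h8
      set y0 := W⁻¹ *ᵥ (G *ᵥ v) with hy0
      have hnn : 0 ≤ qf W (y0 - (u : ℂ) • y) := by
        rw [hqW]
        have := qf_nonneg hD (y0 - (u : ℂ) • y)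
        have := nsq_nonneg (y0 - (u : ℂ) • y)
        have := nsq_nonneg (Gᴴ *ᵥ (y0 - (u : ℂ) • y))
        nlinarith
      have hexp : qf W (y0 - (u : ℂ) • y) = qf P v - 2 * u * nsq v + u ^ 2 * qf W y := by
        have hWy0 : W *ᵥ y0 = G *ᵥ v := hsolve _
        have hc2 : star y ⬝ᵥ (G *ᵥ v) = star v ⬝ᵥ v := by
          have := star_dot_mulVec Gᴴ y v
          rw [conjTranspose_conjTranspose] at this
          rw [← this]
        have hc1 : star y0 ⬝ᵥ (W *ᵥ y) = star v ⬝ᵥ v := by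
          rw [← hWH.eq, ← star_dot_mulVec, hWy0, star_dot_mulVec, ← hv]
        have hc0 : (star y0 ⬝ᵥ (W *ᵥ y0)).re = qf P v := by rw [hr, qf]
        simp only [qf, mulVec_sub, mulVec_smul, star_sub, star_smul, sub_dotProduct,
          dotProduct_sub, smul_dotProduct, dotProduct_smul, hc1, hWy0, hc2, smul_eq_mul,
          star_dot_self]
        rw [hWy0] at hc0
        simp [Complex.mul_re, hc0]
        rw [show (star v ⬝ᵥ (P *ᵥ v)).re = qf P v from rfl]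
        ring
      nlinarith

end Vale.Agent.P358
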