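import Vale.Agent.P358.Basic

namespace Vale.Agent.P358

open Matrix Finset
open scoped ComplexOrder

variable {M : ℕ}

/-- `Z` does not increase the Euclidean norm. -/
def Contr (Z : Matrix (Fin M) (Fin M) ℂ) : Prop := ∀ v, nsq (Z *ᵥ v) ≤ nsq v

lemma Contr.mul {Y Z : Matrix (Fin M) (Fin M) ℂ} (hY : Contr Y) (hZ : Contr Z) :
    Contr (Y * Z) := fun v => by
  rw [← mulVec_mulVec]; exact (hY _).trans (hZ v)

lemma contr_one : Contr (1 : Matrix (Fin M) (Fin M) ℂ) := fun v => by simp

lemma contr_unitary {U : Matrix (Fin M) (Fin M) ℂ} (hU : Uᴴ * U = 1) : Contr U :=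
  fun v => (nsq_unitary hU v).le

/-- The projection onto the first `i` coordinates. -/
def proj (M i : ℕ) : Matrix (Fin M) (Fin M) ℂ :=
  diagonal fun k => if (k : ℕ) < i then 1 else 0

lemma contr_proj (i : ℕ) : Contr (proj M i) := fun v => by
  refine sum_le_sum fun k _ => ?_
  rw [proj, mulVec_diagonal]
  split_ifs <;> simp [Complex.normSq_nonneg]

lemma norm_entry_le {Z : Matrix (Fin M) (Fin M) ℂ} (hZ : Contr Z) (k : Fin M) :
    ‖Z k k‖ ≤ 1 := by
  have h := hZ (Pi.single k 1)
  have h1 : nsq (Pi.single k (1 : ℂ)) = 1 := by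
    simp [nsq, Pi.single_apply, apply_ite Complex.normSq]
  have h2 : Complex.normSq (Z k k) ≤ nsq (Z *ᵥ Pi.single k 1) := by
    refine le_trans (le_of_eq ?_) (single_le_sum (fun i _ => Complex.normSq_nonneg _)
      (mem_univ k))
    simp
  rw [h1] at h
  rw [← sq_le_one_iff₀ (norm_nonneg _), ← Complex.normSq_eq_norm_sq]
  linarith

/-- Product of the word of diagonal matrices and contractions. -/
noncomputable def word : List ((Fin M → ℝ) × Matrix (Fin M) (Fin M) ℂ) → Matrix (Fin M) (Fin M) ℂ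
  | [] => 1
  | a :: l => diagonal (fun k => (a.1 k : ℂ)) * a.2 * word l

/-- The commuting value of a word. -/
def wval (l : List ((Fin M → ℝ) × Matrix (Fin M) (Fin M) ℂ)) (k : Fin M) : ℝ :=
  (l.map fun a => a.1 k).prod

/-- Extension by zero. -/
def pext (p : Fin M → ℝ) (j : ℕ) : ℝ := if h : j < M then p ⟨j, h⟩ else 0

/-- Steps of a decreasing sequence. -/
def step (p : Fin M → ℝ) (j : ℕ) : ℝ := pext p j - pext p (j + 1)

lemma step_nonneg {p : Fin M → ℝ} (hp : Antitone p) (h0 : ∀ k, 0 ≤ p k) (j : ℕ) :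
    0 ≤ step p j := by
  unfold step pext
  split_ifs with h1 h2 h2
  · simpa using hp (show (⟨j, h1⟩ : Fin M) ≤ ⟨j + 1, h2⟩ by simp [Fin.le_def])
  · simpa using h0 _
  · omega
  · simp

lemma sum_step (p : Fin M → ℝ) (k : Fin M) :
    ∑ j ∈ range M, (if (k : ℕ) < j + 1 then step p j else 0) = p k := by
  rw [← sum_filter]
  have h : (range M).filter (fun j => (k : ℕ) < j + 1) = Ico (k : ℕ) M := by
    ext j; simp; omega
  have h2 : ∑ j ∈ Ico (k : ℕ) M, step p j = pext p k - pext p M := by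
    have := sum_Ico_eq_sum_range (fun j => step p j) (k : ℕ) M
    rw [this]
    have h3 := sum_range_sub' (fun i => pext p ((k : ℕ) + i)) (M - k)
    simp only [step, ← add_assoc] at h3 ⊢
    rw [h3, Nat.add_sub_cancel' k.2.le, add_zero]
  rw [h, h2]
  simp [pext]

lemma diag_eq_sum (p : Fin M → ℝ) :
    diagonal (fun k => (p k : ℂ)) = ∑ j ∈ range M, ((step p j : ℝ) : ℂ) • proj M (j + 1) := by
  ext a b
  rw [Matrix.sum_apply]
  by_cases h : a = b
  · subst h
    simp only [diagonal_apply_eq, proj, Matrix.smul_apply, smul_eq_mul, mul_ite, mul_one, mul_zero]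
    rw [← sum_step p a, Complex.ofReal_sum]
    exact sum_congr rfl fun j _ => by split_ifs <;> simp
  · simp [proj, h]

lemma trace_word_le : ∀ (l : List ((Fin M → ℝ) × Matrix (Fin M) (Fin M) ℂ)),
    (∀ a ∈ l, Antitone a.1 ∧ (∀ k, 0 ≤ a.1 k) ∧ Contr a.2) →
    ∀ (i : ℕ) (Y Z : Matrix (Fin M) (Fin M) ℂ), Contr Y → Contr Z →
      ‖trace (proj M i * Y * word l * Z)‖ ≤ ∑ k : Fin M, if (k : ℕ) < i then wval l k else 0
  | [], _, i, Y, Z, hY, hZ => by
    rw [word, Matrix.mul_one, Matrix.mul_assoc]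
    rw [trace]
    refine (norm_sum_le _ _).trans (sum_le_sum fun k _ => ?_)
    rw [diag_apply, proj, diagonal_mul]
    split_ifs
    · simpa [wval] using norm_entry_le (hY.mul hZ) k
    · simp
  | a :: l, hl, i, Y, Z, hY, hZ => by
    obtain ⟨ha, ha0, haK⟩ := hl a (List.mem_cons_self ..)
    have hl' : ∀ b ∈ l, Antitone b.1 ∧ (∀ k, 0 ≤ b.1 k) ∧ Contr b.2 :=
      fun b hb => hl b (List.mem_cons_of_mem _ hb)
    have hterm : ∀ j : ℕ, ‖trace (proj M i * Y * (proj M j * a.2 * word l) * Z)‖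
        ≤ ∑ k : Fin M, if (k : ℕ) < i ∧ (k : ℕ) < j then wval l k else 0 := by
      intro j
      rcases le_or_gt i j with h | h
      · have := trace_word_le l hl' i (Y * proj M j * a.2) Z
          ((hY.mul (contr_proj j)).mul haK) hZ
        refine le_trans (le_of_eq ?_) (this.trans (le_of_eq ?_))
        · simp only [Matrix.mul_assoc]
        · exact sum_congr rfl fun k _ => by
            by_cases hk : (k : ℕ) < i
            · simp [hk, hk.trans_le h]
            · simp [hk]
      · have := trace_word_le l hl' j a.2 (Z * proj M i * Y) haK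
          ((hZ.mul (contr_proj i)).mul hY)
        refine le_trans (le_of_eq ?_) (this.trans (le_of_eq ?_))
        · congr 1
          rw [show proj M i * Y * (proj M j * a.2 * word l) * Z
            = (proj M i * Y) * (proj M j * a.2 * word l * Z) by simp only [Matrix.mul_assoc],
            trace_mul_comm]
          simp only [Matrix.mul_assoc]
        · exact sum_congr rfl fun k _ => by
            by_cases hk : (k : ℕ) < j
            · simp [hk, hk.trans h]
            · simp [hk]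
    have hexp : trace (proj M i * Y * word (a :: l) * Z)
        = ∑ j ∈ range M, ((step a.1 j : ℝ) : ℂ)
            * trace (proj M i * Y * (proj M (j + 1) * a.2 * word l) * Z) := by
      rw [word, diag_eq_sum]
      simp only [Finset.sum_mul, Finset.mul_sum, Matrix.smul_mul, Matrix.mul_smul, trace_sum,
        trace_smul, smul_eq_mul]
    rw [hexp]
    calc ‖∑ j ∈ range M, ((step a.1 j : ℝ) : ℂ)
            * trace (proj M i * Y * (proj M (j + 1) * a.2 * word l) * Z)‖
        ≤ ∑ j ∈ range M, step a.1 j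
            * ∑ k : Fin M, (if (k : ℕ) < i ∧ (k : ℕ) < j + 1 then wval l k else 0) := by
          refine (norm_sum_le _ _).trans (sum_le_sum fun j _ => ?_)
          rw [norm_mul, Complex.norm_real, Real.norm_of_nonneg (step_nonneg ha ha0 j)]
          exact mul_le_mul_of_nonneg_left (hterm (j + 1)) (step_nonneg ha ha0 j)
      _ = ∑ k : Fin M, if (k : ℕ) < i then wval (a :: l) k else 0 := by
          simp only [mul_sum]
          rw [sum_comm]
          refine sum_congr rfl fun k _ => ?_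
          by_cases hk : (k : ℕ) < i
          · simp only [hk, true_and, if_true, mul_ite, mul_zero]
            have : wval (a :: l) k = a.1 k * wval l k := by simp [wval]
            rw [this, ← sum_step a.1 k, sum_mul]
            exact sum_congr rfl fun j _ => by split_ifs <;> simp
          · simp [hk]

lemma pow_mul_cycle {R : Type} [Monoid R] (A B : R) (n : ℕ) :
    (A * B) ^ (n + 1) = A * (B * A) ^ n * B := by
  induction n with
  | zero => simp
  | succ n ih =>
    rw [pow_succ, ih, pow_succ]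
    simp only [mul_assoc]

lemma trace_pow_cycle (A B : Matrix (Fin M) (Fin M) ℂ) (n : ℕ) :
    trace ((A * B) ^ (n + 1)) = trace ((B * A) ^ (n + 1)) := by
  rw [pow_mul_cycle, trace_mul_cycle, pow_succ', Matrix.mul_assoc]

lemma trace_two_word_le {W : Matrix (Fin M) (Fin M) ℂ} (hW : Wᴴ * W = 1) (hW' : W * Wᴴ = 1)
    {p q : Fin M → ℝ} (hp : Antitone p) (hp0 : ∀ k, 0 ≤ p k)
    (hq : Antitone q) (hq0 : ∀ k, 0 ≤ q k) (n : ℕ) :
    ‖trace ((diagonal (fun k => (p k : ℂ)) *
        (W * diagonal (fun k => (q k : ℂ)) * Wᴴ)) ^ n)‖ ≤ ∑ k, (p k * q k) ^ n := by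
  let L : ℕ → List ((Fin M → ℝ) × Matrix (Fin M) (Fin M) ℂ) :=
    fun n => (List.replicate n [(p, W), (q, Wᴴ)]).flatten
  have hL : ∀ n, word (L n) = (diagonal (fun k => (p k : ℂ)) *
      (W * diagonal (fun k => (q k : ℂ)) * Wᴴ)) ^ n := by
    intro n
    induction n with
    | zero => simp [L, word]
    | succ n ih =>
      have : L (n + 1) = (p, W) :: (q, Wᴴ) :: L n := by simp [L, List.replicate_succ]
      rw [this, word, word, ih, pow_succ']
      simp only [Matrix.mul_assoc]
  have hv : ∀ n k, wval (L n) k = (p k * q k) ^ n := by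
    intro n k
    induction n with
    | zero => simp [L, wval]
    | succ n ih =>
      have : L (n + 1) = (p, W) :: (q, Wᴴ) :: L n := by simp [L, List.replicate_succ]
      rw [pow_succ', ← ih, this]
      simp [wval]
      ring
  have hmem : ∀ a ∈ L n, Antitone a.1 ∧ (∀ k, 0 ≤ a.1 k) ∧ Contr a.2 := by
    intro a ha
    simp only [L, List.mem_flatten, List.mem_replicate] at ha
    obtain ⟨l, ⟨-, rfl⟩, ha⟩ := ha
    simp only [List.mem_cons, List.not_mem_nil, or_false] at ha
    rcases ha with rfl | rfl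
    · exact ⟨hp, hp0, contr_unitary hW⟩
    · exact ⟨hq, hq0, contr_unitary (by rw [conjTranspose_conjTranspose]; exact hW')⟩
  have h := trace_word_le (L n) hmem M 1 1 contr_one contr_one
  have hM : proj M M = 1 := by simp [proj]
  simpa [hM, hL, hv] using h

lemma det_one_sub_mul_bound {U V : Matrix (Fin M) (Fin M) ℂ}
    (hU : Uᴴ * U = 1) (hU' : U * Uᴴ = 1) (hV : Vᴴ * V = 1) (hV' : V * Vᴴ = 1)
    {p q : Fin M → ℝ} (hp : Antitone p) (hp0 : ∀ k, 0 ≤ p k) (hp1 : ∀ k, p k < 1)
    (hq : Antitone q) (hq0 : ∀ k, 0 ≤ q k) (hq1 : ∀ k, q k < 1) :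
    ∃ r : ℝ, 0 < r ∧ r ≤ 1 ∧
      det (1 - (U * diagonal (fun k => (p k : ℂ)) * Uᴴ) *
        (V * diagonal (fun k => (q k : ℂ)) * Vᴴ)) = (r : ℂ) ∧
      -Real.log r ≤ ∑ k, -Real.log (1 - p k * q k) := by
  set W := Uᴴ * V with hWd
  have hWc : Wᴴ = Vᴴ * U := by simp [hWd, conjTranspose_mul]
  have hW : Wᴴ * W = 1 := by
    rw [hWc, hWd, Matrix.mul_assoc, ← Matrix.mul_assoc U, hU', Matrix.one_mul, hV]
  have hW' : W * Wᴴ = 1 := by
    rw [hWc, hWd, Matrix.mul_assoc, ← Matrix.mul_assoc V, hV', Matrix.one_mul, hU]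
  set R := W * diagonal (fun k => (q k : ℂ)) * Wᴴ with hR
  set s : Matrix (Fin M) (Fin M) ℂ := diagonal (fun k => (Real.sqrt (p k) : ℂ)) with hs
  have hss : s * s = diagonal (fun k => (p k : ℂ)) := by
    rw [hs, diagonal_mul_diagonal]
    exact congrArg diagonal (funext fun k => by
      rw [← Complex.ofReal_mul, Real.mul_self_sqrt (hp0 k)])
  have hsH : sᴴ = s := by
    rw [hs, diagonal_conjTranspose]
    exact congrArg diagonal (funext fun k => by simp)
  set S := s * R * s with hS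
  have hSherm : S.IsHermitian := by
    have h1 : R.IsHermitian := isHermitian_mul_mul_conjTranspose W
      (isHermitian_diagonal_of_self_adjoint _ (by funext k; simp))
    have := isHermitian_mul_mul_conjTranspose s h1
    rwa [hsH] at this
  have hqfS : ∀ v, qf S v = ∑ k, q k * Complex.normSq ((Wᴴ *ᵥ (s *ᵥ v)) k) := by
    intro v
    rw [← qf_diag, ← hR, qf, qf, star_dot_mulVec, hsH, mulVec_mulVec, mulVec_mulVec, hS,
      Matrix.mul_assoc]
  have hmu : ∀ i, 0 ≤ hSherm.eigenvalues i ∧ hSherm.eigenvalues i < 1 := by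
    intro i
    set v : Fin M → ℂ := ⇑(hSherm.eigenvectorBasis i) with hv
    have hv1 : nsq v = 1 := by
      have := hSherm.eigenvectorBasis.orthonormal.1 i
      rw [EuclideanSpace.norm_eq, Real.sqrt_eq_one] at this
      simpa [nsq, hv, Complex.normSq_eq_norm_sq] using this
    have he : hSherm.eigenvalues i = qf S v := by
      simpa [qf] using hSherm.eigenvalues_eq i
    rw [he, hqfS]
    refine ⟨sum_nonneg fun k _ => mul_nonneg (hq0 k) (Complex.normSq_nonneg _), ?_⟩
    have h1 : ∑ k, q k * Complex.normSq ((Wᴴ *ᵥ (s *ᵥ v)) k) ≤ nsq (s *ᵥ v) := by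
      rw [← nsq_unitary (U := Wᴴ) (by rw [conjTranspose_conjTranspose]; exact hW') (s *ᵥ v)]
      exact sum_le_sum fun k _ =>
        (mul_le_of_le_one_left (Complex.normSq_nonneg _) (hq1 k).le)
    have h2 : nsq (s *ᵥ v) = ∑ k, p k * Complex.normSq (v k) := by
      refine sum_congr rfl fun k _ => ?_
      rw [hs, mulVec_diagonal, Complex.normSq_mul, Complex.normSq_ofReal,
        Real.mul_self_sqrt (hp0 k)]
    have hne : v ≠ 0 := by
      intro h0
      rw [h0] at hv1
      simp [nsq] at hv1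
    obtain ⟨k₀, hk₀⟩ := Function.ne_iff.mp hne
    have h3 : ∑ k, p k * Complex.normSq (v k) < nsq v :=
      sum_lt_sum (fun k _ => mul_le_of_le_one_left (Complex.normSq_nonneg _) (hp1 k).le)
        ⟨k₀, mem_univ _, mul_lt_of_lt_one_left (Complex.normSq_pos.mpr hk₀) (hp1 k₀)⟩
    linarith
  obtain ⟨Z, hZ, hZ', hSd⟩ := eig_decomp hSherm
  set μ := hSherm.eigenvalues with hμd
  have htr : ∀ n : ℕ, trace (S ^ n) = ((∑ i, μ i ^ n : ℝ) : ℂ) := by
    intro n
    have hpow : S ^ n = Z * (diagonal fun i => (μ i : ℂ)) ^ n * Zᴴ := by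
      induction n with
      | zero => simp [hZ']
      | succ n ih =>
        rw [pow_succ, ih, pow_succ]
        conv_lhs => rw [hSd]
        simp only [Matrix.mul_assoc]
        rw [← Matrix.mul_assoc Zᴴ Z, hZ, Matrix.one_mul]
    rw [hpow, trace_mul_comm, ← Matrix.mul_assoc, hZ, Matrix.one_mul, diagonal_pow, trace_diagonal]
    simp
  have hconj : (U * diagonal (fun k => (p k : ℂ)) * Uᴴ) * (V * diagonal (fun k => (q k : ℂ)) * Vᴴ)
      = U * ((diagonal fun k => (p k : ℂ)) * R) * Uᴴ := by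
    have hcU : Uᴴ * V = W := rfl
    rw [hR, hWc]
    simp only [Matrix.mul_assoc]
    rw [hU', Matrix.mul_one, ← Matrix.mul_assoc Uᴴ V, hcU]
  have hdet : det (1 - (U * diagonal (fun k => (p k : ℂ)) * Uᴴ) *
      (V * diagonal (fun k => (q k : ℂ)) * Vᴴ)) = ((∏ i, (1 - μ i) : ℝ) : ℂ) := by
    have hSdiag : det (1 - S) = ((∏ i, (1 - μ i) : ℝ) : ℂ) := by
      conv_lhs => rw [hSd]
      rw [det_one_sub_mul_comm, ← Matrix.mul_assoc, hZ, Matrix.one_mul, ← diagonal_one,
        diagonal_sub, det_diagonal]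
      simp
    rw [hconj, det_one_sub_mul_comm, ← Matrix.mul_assoc, hU, Matrix.one_mul, ← hss,
      Matrix.mul_assoc, det_one_sub_mul_comm, ← hS]
    exact hSdiag
  refine ⟨∏ i, (1 - μ i), prod_pos fun i _ => sub_pos.mpr (hmu i).2,
    prod_le_one (fun i _ => by linarith [(hmu i).2]) (fun i _ => by linarith [(hmu i).1]), hdet, ?_⟩
  rw [Real.log_prod (fun i _ => (sub_pos.mpr (hmu i).2).ne'), ← sum_neg_distrib]
  have hl : HasSum (fun n : ℕ => ∑ i, μ i ^ (n + 1) / ((n : ℝ) + 1))
      (∑ i, -Real.log (1 - μ i)) :=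
    hasSum_sum fun i _ => Real.hasSum_pow_div_log_of_abs_lt_one
      (by rw [abs_of_nonneg (hmu i).1]; exact (hmu i).2)
  have hr : HasSum (fun n : ℕ => ∑ k, (p k * q k) ^ (n + 1) / ((n : ℝ) + 1))
      (∑ k, -Real.log (1 - p k * q k)) :=
    hasSum_sum fun k _ => Real.hasSum_pow_div_log_of_abs_lt_one (by
      rw [abs_of_nonneg (mul_nonneg (hp0 k) (hq0 k))]
      exact lt_of_le_of_lt (mul_le_of_le_one_right (hp0 k) (hq1 k).le) (hp1 k))
  refine hasSum_le (fun n => ?_) hl hr
  rw [← sum_div, ← sum_div]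
  refine div_le_div_of_nonneg_right ?_ (by positivity)
  have h := trace_two_word_le hW hW' hp hp0 hq hq0 (n + 1)
  rw [← hR, ← hss, Matrix.mul_assoc, trace_pow_cycle, ← hS, htr, Complex.norm_real,
    Real.norm_eq_abs] at h
  exact le_trans (le_abs_self _) h

lemma sorted_decomp {P : Matrix (Fin M) (Fin M) ℂ} (hP : P.IsHermitian) :
    ∃ (U : Matrix (Fin M) (Fin M) ℂ) (d : Fin M → ℝ) (σ : Fin M ≃ Fin M),
      Uᴴ * U = 1 ∧ U * Uᴴ = 1 ∧ Antitone d ∧ (∀ i, d i = hP.eigenvalues (σ i)) ∧
      P = U * diagonal (fun i => (d i : ℂ)) * Uᴴ := by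
  obtain ⟨U, hU, hU', hd⟩ := eig_decomp hP
  set σ : Fin M ≃ Fin M := Tuple.sort (fun i => -hP.eigenvalues i)
  refine ⟨U.submatrix id σ, fun i => hP.eigenvalues (σ i), σ, ?_, ?_, ?_, fun i => rfl, ?_⟩
  · rw [conjTranspose_submatrix, ← submatrix_mul _ _ _ _ _ Function.bijective_id, hU,
      submatrix_one_equiv]
  · rw [conjTranspose_submatrix, submatrix_mul_equiv, hU', submatrix_id_id]
  · intro i j hij
    have := Tuple.monotone_sort (fun i => -hP.eigenvalues i) hij
    simpa using this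
  · conv_lhs => rw [hd]
    rw [conjTranspose_submatrix]
    have : diagonal (fun i => (hP.eigenvalues (σ i) : ℂ))
        = (diagonal fun i => (hP.eigenvalues i : ℂ)).submatrix σ σ :=
      (submatrix_diagonal_equiv (fun i => (hP.eigenvalues i : ℂ)) σ).symm
    rw [this, submatrix_mul_equiv, submatrix_mul_equiv, submatrix_id_id]

end Vale.Agent.P358
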