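import Vale.Agent.P358.Channel

namespace Vale.Agent.P358

open Matrix Finset
open scoped ComplexOrder

namespace Par

variable (c : Par)

/-- Excited output population for excited input population `p`. -/
noncomputable def tpop (p : ℝ) : ℝ := (1 - c.u) * (1 - p) + c.w * p

/-- Output entropy of a pure qubit input with excited population `p`. -/
noncomputable def gfun (p : ℝ) : ℝ :=
  Real.binEntropy ((1 + Real.sqrt ((1 - 2 * c.tpop p) ^ 2 + 4 * c.l ^ 2 * (p * (1 - p)))) / 2)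

/-- Scalar expression of an ensemble of populations. -/
noncomputable def val {κ : Type} [Fintype κ] (q p : κ → ℝ) : ℝ :=
  Real.binEntropy (c.tpop (∑ a, q a * p a)) - ∑ a, q a * c.gfun (p a)

/-- The one-qubit matrix with populations `1-p`, `p` and real coherence `r`. -/
noncomputable def qmat (p r : ℝ) : Matrix (Fin 2) (Fin 2) ℂ :=
  !![((1 - p : ℝ) : ℂ), (r : ℂ); (r : ℂ), (p : ℂ)]

lemma qmat_herm (p r : ℝ) : (qmat p r).IsHermitian := by
  ext i j; fin_cases i <;> fin_cases j <;> simp [qmat]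

lemma chan_herm {ρ : Matrix (Fin 2) (Fin 2) ℂ} (h : ρ.IsHermitian) : (c.chan ρ).IsHermitian := by
  have h00 := h.apply 0 0
  have h11 := h.apply 1 1
  have h01 := h.apply 0 1
  have h10 := h.apply 1 0
  simp only [← starRingEnd_apply] at h00 h11 h01 h10
  ext i j
  fin_cases i <;> fin_cases j <;> simp [chan, h00, h11, h01, h10]

lemma ent_chan_qmat (p r : ℝ) (hr : r ^ 2 = p * (1 - p)) : ent (c.chan (qmat p r)) = c.gfun p := by
  have htr : (trace (c.chan (qmat p r))).re = 1 := by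
    simp [chan, qmat, Matrix.trace, Fin.sum_univ_two]; ring
  have hdet : 1 - 4 * (det (c.chan (qmat p r))).re
      = (1 - 2 * c.tpop p) ^ 2 + 4 * c.l ^ 2 * (p * (1 - p)) := by
    rw [det_fin_two, ← hr]
    simp [chan, qmat, tpop]
    ring
  rw [ent_two (c.chan_herm (qmat_herm p r)) htr, hdet, gfun]

lemma gbar_eq {q p : ℝ} (hq : 0 ≤ q) (hp : 0 ≤ p) (hp1 : p ≤ 1) :
    c.gbar (q * (1 - p)) (q * p) = q * c.gfun p := by
  set r := Real.sqrt (1 - p) * Real.sqrt p
  have hr : r ^ 2 = p * (1 - p) := by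
    rw [mul_pow, Real.sq_sqrt (by linarith), Real.sq_sqrt hp]; ring
  have hs : Real.sqrt (q * (1 - p)) * Real.sqrt (q * p) = q * r := by
    rw [Real.sqrt_mul hq, Real.sqrt_mul hq]
    linear_combination (Real.sqrt (1 - p) * Real.sqrt p) * Real.mul_self_sqrt hq
  have hmat : c.chan !![((q * (1 - p) : ℝ) : ℂ),
      ((Real.sqrt (q * (1 - p)) * Real.sqrt (q * p) : ℝ) : ℂ);
      ((Real.sqrt (q * (1 - p)) * Real.sqrt (q * p) : ℝ) : ℂ), ((q * p : ℝ) : ℂ)]
      = (q : ℂ) • c.chan (qmat p r) := by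
    rw [hs]
    ext i j
    fin_cases i <;> fin_cases j <;> simp [chan, qmat] <;> ring
  have htr : (trace (c.chan (qmat p r))).re = 1 := by
    simp [chan, qmat, Matrix.trace, Fin.sum_univ_two]; ring
  rw [gbar, hmat, sbar_smul (c.chan_herm (qmat_herm p r)), sbar, htr, c.ent_chan_qmat p r hr]
  simp

lemma tpop_mem {p : ℝ} (hp : 0 ≤ p) (hp1 : p ≤ 1) : 0 ≤ c.tpop p ∧ c.tpop p ≤ 1 := by
  unfold tpop
  have := c.hu; have := c.hu'; have := c.hw; have := c.hw'
  constructor <;> nlinarith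

lemma gfun_nonneg {p : ℝ} (hp : 0 ≤ p) (hp1 : p ≤ 1) : 0 ≤ c.gfun p := by
  have h1 : 1 - p ≥ 0 := by linarith
  have hA : c.u * (1 - p) ≤ 1 - c.tpop p := by
    unfold tpop; nlinarith [mul_nonneg (sub_nonneg.mpr c.hw') hp]
  have hB : c.w * p ≤ c.tpop p := by
    unfold tpop; nlinarith [mul_nonneg (sub_nonneg.mpr c.hu') h1]
  have hC : c.l ^ 2 * (p * (1 - p)) ≤ c.tpop p * (1 - c.tpop p) := by
    calc c.l ^ 2 * (p * (1 - p)) ≤ c.u * c.w * (p * (1 - p)) :=
          mul_le_mul_of_nonneg_right c.hluw (mul_nonneg hp h1)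
      _ = (c.w * p) * (c.u * (1 - p)) := by ring
      _ ≤ _ := mul_le_mul hB hA (mul_nonneg c.hu h1) (c.tpop_mem hp hp1).1
  have hs : Real.sqrt ((1 - 2 * c.tpop p) ^ 2 + 4 * c.l ^ 2 * (p * (1 - p))) ≤ 1 :=
    Real.sqrt_le_one.mpr (by nlinarith)
  have h0 := Real.sqrt_nonneg ((1 - 2 * c.tpop p) ^ 2 + 4 * c.l ^ 2 * (p * (1 - p)))
  exact Real.binEntropy_nonneg (by linarith) (by linarith)

lemma val_le_log_two {κ : Type} [Fintype κ] {q p : κ → ℝ} (hq : ∀ a, 0 ≤ q a)
    (hp : ∀ a, 0 ≤ p a ∧ p a ≤ 1) : c.val q p ≤ Real.log 2 := by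
  have h1 := Real.binEntropy_le_log_two (p := c.tpop (∑ a, q a * p a))
  have h2 : 0 ≤ ∑ a, q a * c.gfun (p a) :=
    sum_nonneg fun a _ => mul_nonneg (hq a) (c.gfun_nonneg (hp a).1 (hp a).2)
  unfold val
  linarith

/-- `B` bounds all scalar expressions. -/
def Bounds (B : ℝ) : Prop := ∀ (k : ℕ) (q p : Fin k → ℝ),
  (∀ a, 0 ≤ q a) → ∑ a, q a = 1 → (∀ a, 0 ≤ p a ∧ p a ≤ 1) → c.val q p ≤ B

lemma two_point_bound {B : ℝ} (hB : c.Bounds B) {κ : Type} [Fintype κ] (a b : κ → ℝ)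
    (ha : ∀ j, 0 ≤ a j) (hb : ∀ j, 0 ≤ b j) (hab : ∑ j, (a j + b j) = 1) :
    (∑ x, Real.negMulLog (∑ j, (a j * c.P x 0 + b j * c.P x 1))) - ∑ j, c.gbar (a j) (b j) ≤ B := by
  set e := Fintype.equivFin κ
  set q : Fin (Fintype.card κ) → ℝ := fun i => a (e.symm i) + b (e.symm i)
  set p : Fin (Fintype.card κ) → ℝ := fun i => b (e.symm i) / q i
  have hq : ∀ i, 0 ≤ q i := fun i => add_nonneg (ha _) (hb _)
  have hp : ∀ i, 0 ≤ p i ∧ p i ≤ 1 := fun i =>
    ⟨div_nonneg (hb _) (hq i), div_le_one_of_le₀ (by simp only [q]; linarith [ha (e.symm i)]) (hq i)⟩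
  have hqp : ∀ i, q i * p i = b (e.symm i) ∧ q i * (1 - p i) = a (e.symm i) := by
    intro i
    rcases eq_or_ne (q i) 0 with h | h
    · have h1 := ha (e.symm i); have h2 := hb (e.symm i)
      have h3 : a (e.symm i) + b (e.symm i) = 0 := h
      constructor <;> rw [h, zero_mul] <;> linarith
    · have h1 : q i * p i = b (e.symm i) := by simp only [p]; field_simp
      exact ⟨h1, by rw [mul_sub, h1, mul_one]; simp [q]⟩
  have hsum : ∑ i, q i = 1 := by
    rw [← hab]; exact Equiv.sum_comp e.symm (fun j => a j + b j)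
  have hpb : ∑ i, q i * p i = ∑ j, b j := by
    rw [← Equiv.sum_comp e.symm b]; exact sum_congr rfl fun i _ => (hqp i).1
  have h := hB _ q p hq hsum hp
  have hg : ∑ i, q i * c.gfun (p i) = ∑ j, c.gbar (a j) (b j) := by
    rw [← Equiv.sum_comp e.symm fun j => c.gbar (a j) (b j)]
    refine sum_congr rfl fun i _ => ?_
    rw [← (hqp i).2, ← (hqp i).1, c.gbar_eq (hq i) (hp i).1 (hp i).2]
  have ha' : ∑ j, a j = 1 - ∑ j, b j := by rw [sum_add_distrib] at hab; linarith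
  have hh : ∑ x, Real.negMulLog (∑ j, (a j * c.P x 0 + b j * c.P x 1))
      = Real.binEntropy (c.tpop (∑ j, b j)) := by
    rw [Real.binEntropy_eq_negMulLog_add_negMulLog_one_sub, Fin.sum_univ_two, add_comm]
    simp only [sum_add_distrib, ← sum_mul, ha']
    congr 2 <;> simp [P, tpop] <;> ring
  rw [val, hpb, hg, ← hh] at h
  exact h

lemma upper_pure {B : ℝ} (hB : c.Bounds B) : ∀ (n : ℕ) (κ : Type) [Fintype κ]
    (ψ : κ → (Fin n → Fin 2) → ℂ), ∑ a, nsq (ψ a) = 1 →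
    (∑ i, ∑ b, Real.negMulLog (∑ a, ∑ y, Complex.normSq (ψ a y) * c.P b (y i)))
      - ∑ a, sbar (c.out n (vecMulVec (ψ a) (star (ψ a)))) ≤ n * B := by
  intro n
  induction n with
  | zero =>
    intro κ _ ψ _
    have := sum_nonneg (s := (univ : Finset κ)) fun a _ =>
      sbar_nonneg (c.out_psd 0 (posSemidef_vecMulVec_self_star (ψ a)))
    simpa using this
  | succ n ih =>
    intro κ _ ψ hψ
    set φ : κ → Fin 2 → (Fin n → Fin 2) → ℂ := fun a z y => ψ a (Fin.cons z y) with hφ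
    have hsplit : ∀ F : (Fin (n + 1) → Fin 2) → ℝ,
        ∑ y, F y = ∑ z : Fin 2, ∑ y : Fin n → Fin 2, F (Fin.cons z y) := by
      intro F
      rw [← (Fin.consEquiv fun _ : Fin (n + 1) => Fin 2).sum_comp, Fintype.sum_prod_type]
      rfl
    have hns : ∀ a, nsq (ψ a) = nsq (φ a 0) + nsq (φ a 1) := fun a => by
      rw [nsq, hsplit, Fin.sum_univ_two]; rfl
    have h0 := c.two_point_bound hB (fun a => nsq (φ a 0)) (fun a => nsq (φ a 1))
      (fun a => nsq_nonneg _) (fun a => nsq_nonneg _) (by simpa [hns] using hψ)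
    have h1 := ih (κ × Fin 2) (fun az => φ az.1 az.2)
      (by simpa [Fintype.sum_prod_type, Fin.sum_univ_two, hns] using hψ)
    have hsteps : ∑ a, c.gbar (nsq (φ a 0)) (nsq (φ a 1))
        + ∑ az : κ × Fin 2, sbar (c.out n (vecMulVec (φ az.1 az.2) (star (φ az.1 az.2))))
        ≤ ∑ a, sbar (c.out (n + 1) (vecMulVec (ψ a) (star (ψ a)))) := by
      rw [Fintype.sum_prod_type, ← sum_add_distrib]
      refine sum_le_sum fun a _ => ?_
      have := c.sbar_step n (ψ a)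
      rw [Fin.sum_univ_two, ← add_assoc]
      exact this
    have hsite0 : ∀ b, ∑ a, ∑ y, Complex.normSq (ψ a y) * c.P b (y 0)
        = ∑ a, (nsq (φ a 0) * c.P b 0 + nsq (φ a 1) * c.P b 1) := by
      intro b
      refine sum_congr rfl fun a _ => ?_
      rw [hsplit, Fin.sum_univ_two]
      simp [nsq, sum_mul, hφ]
    have hsites : ∀ (i : Fin n) b, ∑ a, ∑ y, Complex.normSq (ψ a y) * c.P b (y i.succ)
        = ∑ az : κ × Fin 2, ∑ y, Complex.normSq (φ az.1 az.2 y) * c.P b (y i) := by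
      intro i b
      rw [Fintype.sum_prod_type]
      refine sum_congr rfl fun a _ => ?_
      rw [hsplit]
      simp [hφ]
    rw [Fin.sum_univ_succ]
    simp only [hsite0, hsites]
    push_cast
    linarith

lemma upper_mixed {B : ℝ} (hB : c.Bounds B) (n : ℕ) {k : ℕ} (q : Fin k → ℝ)
    (ρ : Fin k → Matrix (Fin n → Fin 2) (Fin n → Fin 2) ℂ) (hq : ∀ a, 0 ≤ q a)
    (hq1 : ∑ a, q a = 1) (hρ : ∀ a, (ρ a).PosSemidef ∧ (ρ a).trace = 1) :
    ent (∑ a, (q a : ℂ) • c.out n (ρ a)) - ∑ a, q a * ent (c.out n (ρ a)) ≤ n * B := by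
  have hqρ : ∀ a, ((q a : ℂ) • ρ a).PosSemidef := fun a =>
    (hρ a).1.smul (Complex.zero_le_real.mpr (hq a))
  choose v hv using fun a => psd_decomp (hqρ a)
  set ψ : Fin k × Fin (Fintype.card (Fin n → Fin 2)) → (Fin n → Fin 2) → ℂ :=
    fun aj => v aj.1 aj.2 with hψd
  set ρb := ∑ a, (q a : ℂ) • ρ a with hρb
  have hρbp : ρb.PosSemidef := posSemidef_sum _ fun a _ => hqρ a
  set X := c.out n ρb with hX
  have hXe : ∑ a, (q a : ℂ) • c.out n (ρ a) = X := by rw [hX, hρb, c.out_lin]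
  have hXp : X.PosSemidef := c.out_psd n hρbp
  have hdiag : ∀ y, ρb y y = ((∑ aj, Complex.normSq (ψ aj y) : ℝ) : ℂ) := by
    intro y
    rw [hρb]
    simp only [hv, Matrix.sum_apply, Fintype.sum_prod_type, hψd]
    push_cast
    exact sum_congr rfl fun a _ => sum_congr rfl fun j _ => by
      simp [vecMulVec_apply, Complex.mul_conj]
  have hψ1 : ∑ aj, nsq (ψ aj) = 1 := by
    have h : (trace ρb).re = 1 := by
      rw [hρb, trace_sum, Complex.re_sum]
      simpa [(hρ _).2] using hq1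
    rw [← h]
    simp only [nsq]
    rw [sum_comm, trace, Complex.re_sum]
    exact sum_congr rfl fun y _ => by simp [hdiag y]
  have h := c.upper_pure hB n _ ψ hψ1
  have htr : (trace X).re = 1 := by
    rw [hX, trace_out, hρb, trace_sum, Complex.re_sum]
    simpa [(hρ _).2] using hq1
  have hXm : ∀ i b, (∑ x, if x i = b then (X x x).re else 0)
      = ∑ aj, ∑ y, Complex.normSq (ψ aj y) * c.P b (y i) := by
    intro i b
    have h1 := congrArg Complex.re (c.out_marg n ρb i b)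
    rw [Complex.re_sum, Complex.re_sum] at h1
    rw [sum_comm]
    refine Eq.trans (Eq.trans (sum_congr rfl fun x _ => ?_) h1) (sum_congr rfl fun y _ => ?_)
    · split_ifs <;> simp [hX]
    · rw [hdiag, ← sum_mul, Complex.re_ofReal_mul, Complex.ofReal_re]
  have hd0 : ∀ x, 0 ≤ (X x x).re := fun x => (Complex.nonneg_iff.mp hXp.diag_nonneg).1
  have hd1 : ∑ x, (X x x).re = 1 := by rw [← htr, trace, Complex.re_sum]; rfl
  have h2 : ent X ≤ ∑ i, ∑ b, Real.negMulLog (∑ aj, ∑ y, Complex.normSq (ψ aj y) * c.P b (y i)) :=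
    (ent_le_diag hXp).trans (marginal_bound _ hd0 hd1 _ fun i b => (hXm i b).symm)
  have h3 : ∑ aj, sbar (c.out n (vecMulVec (ψ aj) (star (ψ aj))))
      ≤ ∑ a, q a * ent (c.out n (ρ a)) := by
    rw [Fintype.sum_prod_type]
    refine sum_le_sum fun a _ => ?_
    have h4 : q a * ent (c.out n (ρ a)) = sbar (c.out n ((q a : ℂ) • ρ a)) := by
      rw [out_smul, sbar_smul (c.out_psd n (hρ a).1).1, sbar, trace_out, (hρ a).2]
      simp
    rw [h4, hv a, out_sum]
    exact sbar_sum_le _ _ fun j => c.out_psd n (posSemidef_vecMulVec_self_star _)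
  rw [hXe]
  linarith

end Par

end Vale.Agent.P358
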